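import Mathlib

/-!
# P022, chapter G, KEY LEMMA (D), the abstract algebra

A finite Galois extension `L / F` whose group is a `2`-group, a valuation ring of `L` with `2`
a unit, such that every quadratic subextension of `L / F` is given by a unit that is no square in
the residue field: the valuation ring is stable under the Galois group.
-/

open Polynomial IsLocalRing Pointwise

namespace Vale.Agent.P022.H783

/-- a proper subgroup of a finite `2`-group is contained in a subgroup of index two -/
theorem exists_index_two {G : Type*} [Group G] [Finite G] (hG : IsPGroup 2 G) {D : Subgroup G}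
    (hD : D ≠ ⊤) : ∃ H : Subgroup G, D ≤ H ∧ H.index = 2 := by
  have : Fact (Nat.Prime 2) := ⟨Nat.prime_two⟩
  obtain h | ⟨H, hH, hle⟩ := eq_top_or_exists_le_coatom D
  · exact absurd h hD
  refine ⟨H, hle, ?_⟩
  have : Group.IsNilpotent G := hG.isNilpotent
  have hn : H.Normal := Subgroup.NormalizerCondition.normal_of_coatom H Group.normalizerCondition_of_isNilpotent hH
  have hQ : IsPGroup 2 (G ⧸ H) := hG.to_quotient H
  have : Nontrivial (G ⧸ H) := by
    rw [← not_subsingleton_iff_nontrivial]
    intro h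
    exact hH.1 (QuotientGroup.subgroup_eq_top_of_subsingleton H h)
  obtain ⟨n, hn0⟩ := (IsPGroup.iff_card.mp hQ)
  have hdvd : 2 ∣ Nat.card (G ⧸ H) := by
    rcases n with _ | n
    · have := Finite.one_lt_card (α := G ⧸ H)
      simp at hn0; omega
    · rw [hn0]; exact dvd_pow_self 2 (Nat.succ_ne_zero n)
  obtain ⟨g, hg⟩ := exists_prime_orderOf_dvd_card' 2 hdvd
  have hz : (Subgroup.zpowers g).comap (QuotientGroup.mk' H) = ⊤ := by
    apply hH.2
    refine lt_of_le_of_ne ?_ ?_
    · intro x hx
      rw [Subgroup.mem_comap]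
      have : QuotientGroup.mk' H x = 1 := by simpa using hx
      rw [this]; exact Subgroup.one_mem _
    · intro h
      obtain ⟨y, hy⟩ := QuotientGroup.mk'_surjective H g
      have : y ∈ H := by
        rw [h, Subgroup.mem_comap, hy]; exact Subgroup.mem_zpowers g
      have h1 : g = 1 := by rw [← hy]; simpa using this
      rw [h1, orderOf_one] at hg
      norm_num at hg
  have hz' : Subgroup.zpowers g = ⊤ := by
    rw [eq_top_iff]
    intro x _
    obtain ⟨y, hy⟩ := QuotientGroup.mk'_surjective H x
    have : y ∈ (Subgroup.zpowers g).comap (QuotientGroup.mk' H) := by rw [hz]; trivial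
    rw [Subgroup.mem_comap, hy] at this
    exact this
  rw [Subgroup.index_eq_card, ← hg, ← Nat.card_zpowers, hz', Subgroup.card_top]

section quad
variable {F L : Type*} [Field F] [Field L] [Algebra F L] [FiniteDimensional F L] [IsGalois F L]

/-- an index two subgroup of the Galois group fixes the square root of an element of the base -/
theorem exists_sqrt (h2 : (2 : F) ≠ 0) {H : Subgroup (Gal(L/F))} (hH : H.index = 2) :
    ∃ s : L, s ≠ 0 ∧ (∀ σ ∈ H, σ s = s) ∧ (∀ σ ∉ H, σ s = -s) ∧
      s ∉ Set.range (algebraMap F L) ∧ s ^ 2 ∈ Set.range (algebraMap F L) := by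
  have hn : H.Normal := Subgroup.normal_of_index_eq_two hH
  have hne : H ≠ ⊤ := by
    rintro rfl
    rw [Subgroup.index_top] at hH; norm_num at hH
  have hL2 : (2 : L) ≠ 0 := by
    intro h; apply h2
    apply (algebraMap F L).injective
    rw [map_ofNat, map_zero, h]
  obtain ⟨τ, hτ⟩ : ∃ τ, τ ∉ H := by
    by_contra h; push Not at h
    exact hne (eq_top_iff.mpr fun x _ => h x)
  have hff : IntermediateField.fixedField H ≠ ⊥ := by
    intro h
    apply hne
    rw [← IntermediateField.fixingSubgroup_fixedField H, h, IntermediateField.fixingSubgroup_bot]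
  obtain ⟨x, hx, hxF⟩ : ∃ x ∈ IntermediateField.fixedField H, x ∉ (⊥ : IntermediateField F L) := by
    by_contra h; push Not at h
    exact hff (le_bot_iff.mp h)
  have hxH : ∀ σ ∈ H, σ x = x := fun σ hσ => hx ⟨σ, hσ⟩
  have hτH : ∀ σ ∉ H, σ x = τ x := by
    intro σ hσ
    have : τ⁻¹ * σ ∈ H := by
      rw [Subgroup.mul_mem_iff_of_index_two hH, Subgroup.inv_mem_iff]
      simp [hτ, hσ]
    have h1 := hxH _ this
    rw [AlgEquiv.mul_apply] at h1
    have h2 := congrArg τ h1
    rw [← h2]
    rw [← AlgEquiv.mul_apply, mul_inv_cancel, AlgEquiv.one_apply]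
  have hττ : τ (τ x) = x := by
    have : τ * τ ∈ H := by
      rw [Subgroup.mul_mem_iff_of_index_two hH]
    exact hxH _ this
  set s := x - τ x with hs
  have hs0 : s ≠ 0 := by
    intro h0
    apply hxF
    have hx' : τ x = x := by rw [hs] at h0; exact (sub_eq_zero.mp h0).symm
    rw [← IsGalois.fixedField_top (F := F) (E := L)] 
    rintro ⟨σ, -⟩
    by_cases hσ : σ ∈ H
    · exact hxH σ hσ
    · exact (hτH σ hσ).trans hx'
  have h1 : ∀ σ ∈ H, σ s = s := by
    intro σ hσ
    have : σ * τ ∉ H := by
      rw [Subgroup.mul_mem_iff_of_index_two hH]; simp [hσ, hτ]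
    rw [hs, map_sub, hxH σ hσ, ← AlgEquiv.mul_apply, hτH _ this]
  have h2' : ∀ σ ∉ H, σ s = -s := by
    intro σ hσ
    have : σ * τ ∈ H := by
      rw [Subgroup.mul_mem_iff_of_index_two hH]; simp [hσ, hτ]
    rw [hs, map_sub, hτH σ hσ, ← AlgEquiv.mul_apply, hxH _ this]; ring
  refine ⟨s, hs0, h1, h2', ?_, ?_⟩
  · rintro ⟨a, ha⟩
    have := h2' τ hτ
    rw [← ha, AlgEquiv.commutes, ha] at this
    apply hs0
    have h3 : (2 : L) * s = 0 := by linear_combination this
    exact (mul_eq_zero.mp h3).resolve_left hL2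
  · have : s ^ 2 ∈ IntermediateField.fixedField (⊤ : Subgroup (Gal(L/F))) := by
      rintro ⟨σ, -⟩
      change σ (s ^ 2) = s ^ 2
      by_cases hσ : σ ∈ H
      · rw [map_pow, h1 σ hσ]
      · rw [map_pow, h2' σ hσ]; ring
    rw [IsGalois.fixedField_top, IntermediateField.mem_bot] at this
    exact this

end quad

section dec
variable {F L : Type*} [Field F] [Field L] [Algebra F L] [FiniteDimensional F L] [IsGalois F L]

theorem isInvariant (A : ValuationSubring F) :
    Algebra.IsInvariant A (integralClosure A L) Gal(L/F) := by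
  refine ⟨fun b hb => ?_⟩
  have h : (b : L) ∈ IntermediateField.fixedField (⊤ : Subgroup (Gal(L/F))) := by
    rintro ⟨σ, -⟩
    exact congrArg Subtype.val (hb σ)
  rw [IsGalois.fixedField_top, IntermediateField.mem_bot] at h
  obtain ⟨x, hx⟩ := h
  have hi : IsIntegral A x := by
    rw [← isIntegral_algebraMap_iff (FaithfulSMul.algebraMap_injective F L), hx]
    exact b.2
  obtain ⟨a, ha⟩ := IsIntegrallyClosed.algebraMap_eq_of_integral hi
  refine ⟨a, Subtype.ext ?_⟩
  rw [← hx, ← ha]
  rfl

attribute [local instance] Ideal.Quotient.field in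
theorem stab (A : ValuationSubring F) (h2 : IsUnit (2 : A)) (hG : IsPGroup 2 Gal(L/F))
    (hq : ∀ s : L, s ≠ 0 → s ∉ Set.range (algebraMap F L) → s ^ 2 ∈ Set.range (algebraMap F L) →
      ∃ c : F, c ≠ 0 ∧ ∃ u : A, algebraMap A L u = (algebraMap F L c * s) ^ 2 ∧
        ∀ x : A, x ^ 2 - u ∉ maximalIdeal A)
    (Q : Ideal (integralClosure A L)) [Q.IsMaximal] [hQ : Q.LiesOver (maximalIdeal A)]
    (σ : Gal(L/F)) : σ • Q = Q := by
  have hinv := isInvariant (L := L) A
  suffices h : MulAction.stabilizer Gal(L/F) Q = ⊤ by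
    have : σ ∈ MulAction.stabilizer Gal(L/F) Q := by rw [h]; trivial
    exact this
  by_contra hne
  obtain ⟨H, hle, hH⟩ := exists_index_two hG hne
  have h2F : (2 : F) ≠ 0 := by
    intro h
    have : (2 : A) = 0 := Subtype.ext h
    rw [this] at h2
    exact not_isUnit_zero h2
  obtain ⟨s, hs0, hsH, -, hsF, hs2⟩ := exists_sqrt h2F hH
  obtain ⟨c, hc, u, hu, hx⟩ := hq s hs0 hsF hs2
  have hint : IsIntegral A (algebraMap F L c * s) := by
    apply IsIntegral.of_pow (n := 2) (by norm_num)
    rw [← hu]
    exact isIntegral_algebraMap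
  let t : integralClosure A L := ⟨algebraMap F L c * s, hint⟩
  have ht2 : t ^ 2 = algebraMap A _ u := Subtype.ext hu.symm
  have hirr : Irreducible (X ^ 2 - C (Ideal.Quotient.mk (maximalIdeal A) u)) := by
    apply X_pow_sub_C_irreducible_of_prime Nat.prime_two
    intro b hb
    obtain ⟨b, rfl⟩ := Ideal.Quotient.mk_surjective b
    apply hx b
    rw [← Ideal.Quotient.eq_zero_iff_mem, map_sub, map_pow, hb, sub_self]
  have hmon : (X ^ 2 - C (Ideal.Quotient.mk (maximalIdeal A) u)).Monic := monic_X_pow_sub_C _ (by norm_num)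
  have e : ∀ y : (integralClosure A L) ⧸ Q, y ^ 2 = (Ideal.Quotient.mk Q t) ^ 2 →
      minpoly (A ⧸ maximalIdeal A) y = X ^ 2 - C (Ideal.Quotient.mk (maximalIdeal A) u) := by
    intro y hy
    symm
    apply minpoly.eq_of_irreducible_of_monic hirr _ hmon
    rw [map_sub, map_pow, aeval_X, aeval_C, hy, ← map_pow, ht2]
    exact sub_self _
  have hnorm := Ideal.Quotient.normal Gal(L/F) (maximalIdeal A) Q
  obtain ⟨τ, hτ⟩ := (isConjRoot_iff_exists_algEquiv (K := A ⧸ maximalIdeal A)
      (x := -(Ideal.Quotient.mk Q t)) (y := Ideal.Quotient.mk Q t)).mp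
    ((e _ (by ring)).trans (e _ rfl).symm)
  obtain ⟨g, hg⟩ := Ideal.Quotient.stabilizerHom_surjective Gal(L/F) (maximalIdeal A) Q τ
  have hgt : (g : Gal(L/F)) • t = t := by
    apply Subtype.ext
    change (g : Gal(L/F)) (algebraMap F L c * s) = algebraMap F L c * s
    rw [map_mul, AlgEquiv.commutes, hsH _ (hle g.2)]
  have h3 : Ideal.Quotient.mk Q t = -Ideal.Quotient.mk Q t := by
    rw [← hτ, ← hg]
    change _ = Ideal.Quotient.mk Q ((g : Gal(L/F)) • t)
    rw [hgt]
  have h4 : 2 * t ∈ Q := by
    rw [← Ideal.Quotient.eq_zero_iff_mem, map_mul, map_ofNat]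
    linear_combination h3
  have h5 : IsUnit (2 : integralClosure A L) := by
    have := h2.map (algebraMap A (integralClosure A L))
    rwa [map_ofNat] at this
  have h6 : t ∈ Q := by
    rcases (Ideal.IsMaximal.isPrime ‹Q.IsMaximal›).mem_or_mem h4 with h | h
    · exact absurd (Ideal.eq_top_of_isUnit_mem _ h h5) (Ideal.IsMaximal.ne_top ‹_›)
    · exact h
  have h7 : algebraMap A (integralClosure A L) u ∈ Q := by
    rw [← ht2]; exact Ideal.pow_mem_of_mem _ h6 2 (by norm_num)
  have h8 : u ∈ maximalIdeal A := by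
    rw [hQ.over]; exact h7
  apply hx 0
  rw [zero_pow (by norm_num), zero_sub]
  exact neg_mem h8
end dec


/-- Kaplansky: in a local integrally closed subring, a root of a polynomial with a unit coefficient
or its inverse is in the ring -/
theorem kap {R L : Type*} [CommRing R] [IsLocalRing R] [Field L] [Algebra R L]
    (hR : ∀ y : L, IsIntegral R y → ∃ r : R, algebraMap R L r = y) (x : L) (n : ℕ) :
    ∀ p : R[X], p.natDegree ≤ n → aeval x p = 0 → (∃ i, IsUnit (p.coeff i)) →
      (∃ r : R, algebraMap R L r = x) ∨ ∃ r : R, algebraMap R L r = x⁻¹ := by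
  induction n with
  | zero =>
    intro p hp h0 ⟨i, hi⟩
    exfalso
    rw [Nat.le_zero, natDegree_eq_zero] at hp
    obtain ⟨c, rfl⟩ := hp
    rw [aeval_C] at h0
    have hi0 : i = 0 := by
      by_contra h
      rw [coeff_C_of_ne_zero h] at hi
      exact not_isUnit_zero hi
    rw [hi0, coeff_C_zero] at hi
    have := hi.map (algebraMap R L)
    rw [h0] at this
    exact not_isUnit_zero this
  | succ n ih =>
    intro p hp h0 ⟨i, hi⟩
    by_cases hd : p.natDegree ≤ n
    · exact ih p hd h0 ⟨i, hi⟩
    have hdeg : p.natDegree = n + 1 := by omega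
    obtain ⟨y, hy⟩ := hR _ (isIntegral_leadingCoeff_smul p x h0)
    rw [Algebra.smul_def] at hy
    by_cases hl : IsUnit p.leadingCoeff
    · left
      obtain ⟨u, hu⟩ := hl
      refine ⟨(↑u⁻¹ : R) * y, ?_⟩
      rw [map_mul, hy, ← hu, ← mul_assoc, ← map_mul, Units.inv_mul, map_one, one_mul]
    have hx0 : x ≠ 0 ∨ x = 0 := (em _).symm
    set q := p.eraseLead + C y * X ^ n with hq
    have hqx : aeval x q = 0 := by
      have h1 : aeval x p.eraseLead + algebraMap R L p.leadingCoeff * x ^ (n + 1) = 0 := by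
        have := congrArg (aeval x) p.eraseLead_add_C_mul_X_pow
        rw [map_add, map_mul, aeval_C, map_pow, aeval_X, h0, hdeg] at this
        exact this
      rw [hq, map_add, map_mul, aeval_C, map_pow, aeval_X, hy]
      rw [← h1]; ring
    have hqd : q.natDegree ≤ n := by
      rw [hq]
      apply natDegree_add_le_of_degree_le
      · exact (eraseLead_natDegree_le p).trans (by omega)
      · exact natDegree_C_mul_X_pow_le _ _
    by_cases hu : ∃ i, IsUnit (q.coeff i)
    · exact ih q hqd hqx hu
    push Not at hu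
    right
    have hcoef : ∀ j, q.coeff j = (if j = n + 1 then 0 else p.coeff j) + (if j = n then y else 0) := by
      intro j
      rw [hq, coeff_add, coeff_C_mul, coeff_X_pow, eraseLead_coeff, hdeg]
      simp
    have hin : i = n := by
      by_contra hne
      have h1 : i ≠ n + 1 := by
        rintro rfl
        apply hl
        rwa [leadingCoeff, hdeg]
      apply hu i
      rw [hcoef, if_neg h1, if_neg hne, add_zero]
      exact hi
    subst hin
    have h2 := hu i
    rw [hcoef, if_neg (by omega), if_pos rfl] at h2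
    have hyu : IsUnit y := by
      by_contra hy'
      apply (IsLocalRing.mem_maximalIdeal _).mp _ hi
      have h3 : p.coeff i = (p.coeff i + y) - y := by ring
      rw [h3]
      exact sub_mem ((IsLocalRing.mem_maximalIdeal _).mpr h2) ((IsLocalRing.mem_maximalIdeal _).mpr hy')
    obtain ⟨u, hu'⟩ := hyu
    have hx : x ≠ 0 := by
      rintro rfl
      rw [mul_zero] at hy
      have := (u.isUnit.map (algebraMap R L))
      rw [hu', hy] at this
      exact not_isUnit_zero this
    refine ⟨p.leadingCoeff * (↑u⁻¹ : R), ?_⟩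
    have h5 : algebraMap R L (↑u⁻¹ : R) * algebraMap R L y = 1 := by
      rw [← map_mul, ← hu', Units.inv_mul, map_one]
    rw [map_mul]
    field_simp
    rw [hy] at h5
    linear_combination h5

section uniq
variable {F L : Type*} [Field F] [Field L] [Algebra F L] [FiniteDimensional F L] [IsGalois F L]

omit [FiniteDimensional F L] in
/-- every element of an algebraic extension is a root of a polynomial with coefficients in the
valuation ring, one of them a unit -/
theorem exists_prim (A : ValuationSubring F) (x : L) :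
    ∃ p : A[X], aeval x p = 0 ∧ ∃ i, IsUnit (p.coeff i) := by
  have hx : IsAlgebraic F x := Algebra.IsAlgebraic.isAlgebraic x
  obtain ⟨q, hq0, hq⟩ := hx
  -- choose the coefficient of maximal valuation
  obtain ⟨i, hi, hmax⟩ := Finset.exists_max_image q.support (fun i => A.valuation (q.coeff i))
    (by rwa [Finset.nonempty_iff_ne_empty, Ne, support_eq_empty])
  have hc : q.coeff i ≠ 0 := mem_support_iff.mp hi
  have hA : ∀ j, (q.coeff i)⁻¹ * q.coeff j ∈ A := by
    intro j
    rw [← A.valuation_le_one_iff, map_mul, map_inv₀]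
    have h1 : A.valuation (q.coeff i) ≠ 0 := (Valuation.ne_zero_iff _).mpr hc
    by_cases hj : q.coeff j = 0
    · rw [hj]; simp
    · have := hmax j (mem_support_iff.mpr hj)
      calc _ ≤ (A.valuation (q.coeff i))⁻¹ * A.valuation (q.coeff i) := by gcongr
        _ = 1 := inv_mul_cancel₀ h1
  have hlift : C (q.coeff i)⁻¹ * q ∈ lifts (algebraMap A F) := by
    rw [lifts_iff_coeff_lifts]
    intro j
    rw [coeff_C_mul]
    exact ⟨⟨_, hA j⟩, rfl⟩
  obtain ⟨p, hp⟩ := hlift
  have hp' : p.map (algebraMap A F) = C (q.coeff i)⁻¹ * q := hp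
  refine ⟨p, ?_, i, ?_⟩
  · rw [← aeval_map_algebraMap F, hp', map_mul, hq, mul_zero]
  · have h1 : algebraMap A F (p.coeff i) = 1 := by
      rw [← coeff_map, hp', coeff_C_mul, inv_mul_cancel₀ hc]
    have : p.coeff i = 1 := (FaithfulSMul.algebraMap_injective A F) (by rw [h1, map_one])
    rw [this]; exact isUnit_one

/-- **unique extension** -/
theorem mem_iff_integral (A : ValuationSubring F) (h2 : IsUnit (2 : A)) (hG : IsPGroup 2 Gal(L/F))
    (hq : ∀ s : L, s ≠ 0 → s ∉ Set.range (algebraMap F L) → s ^ 2 ∈ Set.range (algebraMap F L) →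
      ∃ c : F, c ≠ 0 ∧ ∃ u : A, algebraMap A L u = (algebraMap F L c * s) ^ 2 ∧
        ∀ x : A, x ^ 2 - u ∉ maximalIdeal A)
    (W : ValuationSubring L) (hW : ∀ x : F, algebraMap F L x ∈ W ↔ x ∈ A) (x : L) :
    x ∈ W ↔ IsIntegral A x := by
  have hinv := isInvariant (L := L) A
  have hint := Algebra.IsInvariant.isIntegral A (integralClosure A L) Gal(L/F)
  have hmem : ∀ y : L, IsIntegral A y → y ∈ W := by
    intro y hy
    obtain ⟨p, hp, hpy⟩ := hy
    let f : A →+* W := ((algebraMap F L).comp (algebraMap A F)).codRestrict W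
      (fun a => (hW _).mpr a.2)
    have hyW : IsIntegral W y := ⟨p.map f, hp.map f, by rw [eval₂_map]; exact hpy⟩
    obtain ⟨w, hw⟩ := IsIntegrallyClosed.algebraMap_eq_of_integral hyW
    rw [← hw]; exact w.2
  have hlies : ∀ Q : Ideal (integralClosure A L), Q.IsMaximal → Q.LiesOver (maximalIdeal A) := by
    intro Q hQ
    constructor
    have : (Q.under A).IsMaximal := Ideal.isMaximal_comap_of_isIntegral_of_isMaximal Q
    exact (IsLocalRing.eq_maximalIdeal this).symm
  have hloc : IsLocalRing (integralClosure A L) := by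
    apply IsLocalRing.of_unique_max_ideal
    obtain ⟨Q, hQ⟩ := Ideal.exists_maximal (integralClosure A L)
    refine ⟨Q, hQ, fun Q' hQ' => ?_⟩
    have l1 := hlies Q hQ
    have l2 := hlies Q' hQ'
    have := hQ.isPrime
    have := hQ'.isPrime
    obtain ⟨g, hg⟩ := Algebra.IsInvariant.exists_smul_of_under_eq A (integralClosure A L) Gal(L/F)
      Q Q' (l1.over.symm.trans l2.over)
    rw [hg]
    exact stab A h2 hG hq Q g
  refine ⟨fun hx => ?_, hmem x⟩
  by_cases hx0 : x = 0
  · rw [hx0]; exact isIntegral_zero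
  obtain ⟨p, hp, i, hi⟩ := exists_prim (L := L) A x
  have hp' : aeval x (p.map (algebraMap A (integralClosure A L))) = 0 := by
    rw [aeval_map_algebraMap, hp]
  have hR : ∀ y : L, IsIntegral (integralClosure A L) y →
      ∃ r : integralClosure A L, algebraMap (integralClosure A L) L r = y := by
    intro y hy
    exact ⟨⟨y, isIntegral_trans y hy⟩, rfl⟩
  rcases kap hR x _ _ le_rfl hp' ⟨i, by rw [coeff_map]; exact hi.map _⟩ with ⟨r, hr⟩ | ⟨r, hr⟩
  · rw [← hr]; exact r.2
  by_cases hr' : IsUnit r
  · obtain ⟨u, hu⟩ := hr'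
    have h1 : algebraMap (integralClosure A L) L (↑u⁻¹ : integralClosure A L) = x := by
      have h3 : algebraMap (integralClosure A L) L (↑u⁻¹ : integralClosure A L) * x⁻¹ = 1 := by
        rw [← hr, ← map_mul, ← hu, Units.inv_mul, map_one]
      have hx0 : x ≠ 0 := by rintro rfl; simp at h3
      field_simp at h3
      exact h3
    rw [← h1]; exact Subtype.prop _
  · exfalso
    let f : integralClosure A L →+* W := (algebraMap (integralClosure A L) L).codRestrict W
      (fun b => hmem _ b.2)
    have hfr : (⟨x, hx⟩ : W) * f r = 1 := by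
      apply Subtype.ext
      change x * algebraMap (integralClosure A L) L r = 1
      rw [hr, mul_inv_cancel₀ hx0]
    have hP : ((maximalIdeal W).comap f).under A = maximalIdeal A := by
      ext a
      rw [Ideal.under_def, Ideal.comap_comap, Ideal.mem_comap, IsLocalRing.mem_maximalIdeal,
        IsLocalRing.mem_maximalIdeal, mem_nonunits_iff, mem_nonunits_iff, not_iff_not]
      constructor
      · intro h
        obtain ⟨w, hw⟩ := isUnit_iff_exists_inv.mp h
        have hw' : algebraMap F L a * w = 1 := congrArg Subtype.val hw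
        have ha0 : (a : F) ≠ 0 := by
          intro h0
          rw [h0, map_zero, zero_mul] at hw'
          exact zero_ne_one hw'
        have h3 : (w : L) = algebraMap F L (a : F)⁻¹ := by
          rw [map_inv₀]
          exact eq_inv_of_mul_eq_one_right hw'
        have h4 : (a : F)⁻¹ ∈ A := by
          rw [← hW, ← h3]; exact w.2
        exact isUnit_iff_exists_inv.mpr ⟨⟨_, h4⟩, Subtype.ext (mul_inv_cancel₀ ha0)⟩
      · intro h
        exact h.map _
    have hPm : ((maximalIdeal W).comap f).IsMaximal := by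
      have : (((maximalIdeal W).comap f).under A).IsMaximal := by rw [hP]; infer_instance
      exact Ideal.isMaximal_of_isIntegral_of_isMaximal_comap _ this
    have hrm : r ∈ (maximalIdeal W).comap f := by
      rw [IsLocalRing.eq_maximalIdeal hPm]; exact hr'
    exact (IsLocalRing.mem_maximalIdeal _).mp hrm (isUnit_iff_exists_inv'.mpr ⟨_, hfr⟩)

end uniq


section root

theorem lt_one_iff {L : Type*} [Field L] (W : ValuationSubring L) {x : L} (hx : x ≠ 0) :
    W.valuation x < 1 ↔ x⁻¹ ∉ W := by
  have h1 : W.valuation x ≠ 0 := (Valuation.ne_zero_iff _).mpr hx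
  rw [← W.valuation_le_one_iff, map_inv₀, not_le, one_lt_inv₀ (zero_lt_iff.mpr h1)]

/-- a root of unity of order a power of `2` which is congruent to `1` is `1` -/
theorem eq_one_of_congr {L Γ : Type*} [Field L] [LinearOrderedCommGroupWithZero Γ]
    (w : Valuation L Γ) (h2 : w 2 = 1) (n : ℕ) :
    ∀ ε : L, ε ^ (2 ^ n) = 1 → w (ε - 1) < 1 → ε = 1 := by
  induction n with
  | zero => intro ε h _; simpa using h
  | succ n ih =>
    intro ε h h1
    have hε : w ε = 1 := by
      have : ε = 1 + (ε - 1) := by ring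
      rw [this]
      exact Valuation.map_one_add_of_lt w h1
    have hp : w (ε + 1) ≤ 1 := by
      refine (w.map_add _ _).trans ?_
      rw [hε, map_one, max_self]
    have hsq : ε ^ 2 = 1 := by
      apply ih
      · rw [← pow_mul, ← pow_succ']; exact h
      · have : ε ^ 2 - 1 = (ε - 1) * (ε + 1) := by ring
        rw [this, map_mul]
        exact mul_lt_one_of_lt_of_le h1 hp
    have h3 : (ε - 1) * (ε + 1) = 0 := by linear_combination hsq
    rcases mul_eq_zero.mp h3 with h4 | h4
    · exact sub_eq_zero.mp h4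
    · exfalso
      have : ε - 1 = -2 := by linear_combination h4
      rw [this, Valuation.map_neg, h2] at h1
      exact lt_irrefl _ h1

variable {F K L : Type*} [Field F] [Field K] [Field L] [Algebra F K] [Algebra K L] [Algebra F L]
  [IsScalarTower F K L] [FiniteDimensional F L] [IsGalois F L]

/-- a valuation ring of a subfield extends -/
theorem exists_dom {K L : Type*} [Field K] [Field L] [Algebra K L] (V : ValuationSubring K) :
    ∃ W : ValuationSubring L, ∀ x : K, algebraMap K L x ∈ W ↔ x ∈ V := by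
  obtain ⟨W, hW, hloc⟩ := IsLocalRing.exists_factor_valuationRing
    ((algebraMap K L).comp (algebraMap V K))
  refine ⟨W, fun x => ⟨fun hx => ?_, fun hx => hW ⟨x, hx⟩⟩⟩
  by_contra hxV
  have hx0 : x ≠ 0 := by rintro rfl; exact hxV V.zero_mem
  have hi : x⁻¹ ∈ V := (V.mem_or_inv_mem x).resolve_left hxV
  have hu : IsUnit (⟨x⁻¹, hi⟩ : V) := by
    apply hloc.map_nonunit
    refine isUnit_iff_exists_inv.mpr ⟨⟨algebraMap K L x, hx⟩, Subtype.ext ?_⟩
    change algebraMap K L x⁻¹ * algebraMap K L x = 1
    rw [← map_mul, inv_mul_cancel₀ hx0, map_one]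
  obtain ⟨y, hy⟩ := isUnit_iff_exists_inv.mp hu
  have hy' : x⁻¹ * (y : K) = 1 := congrArg Subtype.val hy
  have : (y : K) = x := by
    field_simp at hy'
    exact hy'
  exact hxV (this ▸ y.2)

/-- **KEY LEMMA (D)**, abstract form -/
theorem key (A : ValuationSubring F) (V : ValuationSubring K)
    (hVA : ∀ x : F, algebraMap F K x ∈ V ↔ x ∈ A) (h2 : IsUnit (2 : A))
    (hG : IsPGroup 2 Gal(L/F))
    (hq : ∀ s : L, s ≠ 0 → s ∉ Set.range (algebraMap F L) → s ^ 2 ∈ Set.range (algebraMap F L) →
      ∃ c : F, c ≠ 0 ∧ ∃ u : A, algebraMap A L u = (algebraMap F L c * s) ^ 2 ∧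
        ∀ x : A, x ^ 2 - u ∉ maximalIdeal A)
    (n : ℕ) {ζ : F} (hζ : IsPrimitiveRoot ζ (2 ^ n)) (f : K) (hf : V.valuation (f - 1) < 1)
    (h : L) (hh : h ^ (2 ^ n) = algebraMap K L f) : ∃ g : K, algebraMap K L g = h := by
  obtain ⟨W, hW⟩ := exists_dom (L := L) V
  have hWA : ∀ x : F, algebraMap F L x ∈ W ↔ x ∈ A := by
    intro x; rw [IsScalarTower.algebraMap_apply F K L, hW, hVA]
  have hWi := mem_iff_integral A h2 hG hq W hWA
  have hσW : ∀ (σ : Gal(L/F)) (x : L), σ x ∈ W ↔ x ∈ W := by
    intro σ x
    rw [hWi, hWi]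
    have hs : ∀ (τ : Gal(L/F)) (y : L), IsIntegral A y → IsIntegral A (τ y) := by
      intro τ y hy
      exact hy.map (τ.toAlgHom.restrictScalars A)
    refine ⟨fun hx => ?_, hs σ x⟩
    have := hs σ.symm _ hx
    rwa [AlgEquiv.symm_apply_apply] at this
  have hσv : ∀ (σ : Gal(L/F)) (x : L), W.valuation x < 1 → W.valuation (σ x) < 1 := by
    intro σ x hx
    by_cases hx0 : x = 0
    · rw [hx0, map_zero, map_zero]; exact zero_lt_one
    rw [lt_one_iff W hx0] at hx
    rw [lt_one_iff W (by simpa using hx0), ← map_inv₀, hσW]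
    exact hx
  have hKv : ∀ x : K, V.valuation x < 1 → W.valuation (algebraMap K L x) < 1 := by
    intro x hx
    by_cases hx0 : x = 0
    · rw [hx0, map_zero, map_zero]; exact zero_lt_one
    rw [lt_one_iff V hx0] at hx
    rw [lt_one_iff W (by simpa using hx0), ← map_inv₀, hW]
    exact hx
  set w := W.valuation with hw
  have hN : 0 < 2 ^ n := by positivity
  have hw2 : w 2 = 1 := by
    obtain ⟨u, hu⟩ := isUnit_iff_exists_inv.mp h2
    have hu' : (2 : F) * (u : F) = 1 := congrArg Subtype.val hu
    have h1 : w 2 ≤ 1 := by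
      rw [hw, W.valuation_le_one_iff]
      have := (hWA 2).mpr (2 : A).2
      rwa [map_ofNat] at this
    have h3 : w (algebraMap F L u) ≤ 1 := by
      rw [hw, W.valuation_le_one_iff]
      exact (hWA _).mpr u.2
    have h4 : w 2 * w (algebraMap F L u) = 1 := by
      rw [← map_mul, ← map_ofNat (algebraMap F L) 2, ← map_mul, hu', map_one, map_one]
    apply le_antisymm h1
    rw [← h4]
    exact mul_le_of_le_one_right' h3
  have hwf : w (h ^ (2 ^ n) - 1) < 1 := by
    have := hKv _ hf
    rwa [map_sub, map_one, ← hh] at this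
  have hwh : w h = 1 := by
    have h1 : w (h ^ (2 ^ n)) = 1 := by
      have : h ^ (2 ^ n) = 1 + (h ^ (2 ^ n) - 1) := by ring
      rw [this]
      exact Valuation.map_one_add_of_lt w hwf
    rw [map_pow] at h1
    exact (pow_eq_one_iff_of_nonneg zero_le hN.ne').mp h1
  have hζL : IsPrimitiveRoot (algebraMap F L ζ) (2 ^ n) :=
    hζ.map_of_injective (algebraMap F L).injective
  -- `h` is congruent to a root of unity
  obtain ⟨η, hη⟩ : ∃ η : F, w (h - algebraMap F L η) < 1 := by
    have hprod := X_pow_sub_one_eq_prod hN hζL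
    have he := congrArg (eval h) hprod
    rw [eval_sub, eval_pow, eval_X, eval_one, eval_prod] at he
    rw [he, map_prod] at hwf
    by_contra hcon
    push Not at hcon
    apply absurd hwf
    rw [not_lt]
    apply Finset.one_le_prod'
    intro η hη
    rw [mem_nthRootsFinset hN] at hη
    obtain ⟨i, -, rfl⟩ := hζL.eq_pow_of_pow_eq_one hη
    rw [eval_sub, eval_X, eval_C, ← map_pow]
    exact hcon _
  have hfix : h ∈ IntermediateField.fixedField (⊤ : Subgroup (Gal(L/K))) := by
    rintro ⟨σ, -⟩
    change σ h = h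
    have hh0 : h ≠ 0 := by
      intro h0; rw [h0, map_zero] at hwh; exact zero_ne_one hwh
    have h1 : (σ h / h) ^ (2 ^ n) = 1 := by
      rw [div_pow, ← map_pow, hh, AlgEquiv.commutes, ← hh, div_self (pow_ne_zero _ hh0)]
    have h3 : w (σ h - algebraMap F L η) < 1 := by
      have := hσv (σ.restrictScalars F) _ hη
      rw [AlgEquiv.restrictScalars_apply, map_sub] at this
      rwa [IsScalarTower.algebraMap_apply F K L, AlgEquiv.commutes,
        ← IsScalarTower.algebraMap_apply F K L] at this
    have h4 : w (σ h - h) < 1 := by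
      have : σ h - h = (σ h - algebraMap F L η) - (h - algebraMap F L η) := by ring
      rw [this]
      exact (w.map_sub _ _).trans_lt (max_lt h3 hη)
    have h5 : w (σ h / h - 1) < 1 := by
      have : σ h / h - 1 = (σ h - h) / h := by field_simp
      rw [this, map_div₀, hwh, div_one]
      exact h4
    have h6 := eq_one_of_congr w hw2 n _ h1 h5
    field_simp at h6
    exact h6
  have : IsGalois K L := IsGalois.tower_top_of_isGalois F K L
  have : FiniteDimensional K L := Module.Finite.of_restrictScalars_finite F K L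
  rw [IsGalois.fixedField_top, IntermediateField.mem_bot] at hfix
  exact hfix

end root


end Vale.Agent.P022.H783
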