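import Mathlib

/-!
# P022-L3, chapter G, [LEX]: the radical extension `L = K(2^n-th roots of the conjugates of f)`
-/

open Polynomial

namespace Vale.Agent.P022.H783

theorem exists_L {F K : Type} [Field F] [Field K] [CharZero F] [Algebra F K]
    [FiniteDimensional F K] [IsGalois F K] (hG : IsPGroup 2 Gal(K/F)) (n : ℕ) {ζ : F}
    (hζ : IsPrimitiveRoot ζ (2 ^ n)) (f : K) :
    ∃ (L : Type) (_ : Field L) (_ : Algebra F L) (_ : Algebra K L) (_ : IsScalarTower F K L)
      (_ : FiniteDimensional F L) (_ : IsGalois F L), IsPGroup 2 Gal(L/F) ∧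
      (∃ h : L, h ^ (2 ^ n) = algebraMap K L f) ∧
      ∃ S : Set L, (∀ s ∈ S, ∃ g : Gal(K/F), s ^ (2 ^ n) = algebraMap K L (g f)) ∧
        IntermediateField.adjoin K S = ⊤ := by
  classical
  have hN : 0 < 2 ^ n := by positivity
  set P : K[X] := ∏ g : Gal(K/F), (X ^ (2 ^ n) - C (g f)) with hP
  have hPm : P.Monic := monic_prod_of_monic _ _ fun g _ => monic_X_pow_sub_C _ hN.ne'
  have hPσ : ∀ σ : Gal(K/F), P.map (σ : K →+* K) = P := by
    intro σ
    rw [hP, Polynomial.map_prod]
    refine Fintype.prod_equiv (Equiv.mulLeft σ) _ _ fun g => ?_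
    rw [Polynomial.map_sub, Polynomial.map_pow, map_X, map_C]
    rfl
  obtain ⟨P0, hP0⟩ : ∃ P0 : F[X], P0.map (algebraMap F K) = P := by
    have : P ∈ lifts (algebraMap F K) := by
      rw [lifts_iff_coeff_lifts]
      intro j
      have h1 : P.coeff j ∈ IntermediateField.fixedField (⊤ : Subgroup Gal(K/F)) := by
        rintro ⟨σ, -⟩
        change σ (P.coeff j) = P.coeff j
        conv_rhs => rw [← hPσ σ]
        rw [coeff_map]; rfl
      rw [IsGalois.fixedField_top, IntermediateField.mem_bot] at h1
      exact h1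
    exact (mem_lifts _).mp this
  have hcK : CharZero K := charZero_of_injective_algebraMap (algebraMap F K).injective
  obtain ⟨Q, hQs, hQ⟩ := IsGalois.is_separable_splitting_field F K
  have hspl : IsSplittingField K P.SplittingField P := inferInstance
  have hspl' : IsSplittingField K P.SplittingField (P0.map (algebraMap F K)) := by
    rw [hP0]; exact hspl
  have hP0' : P0 ≠ 0 := by
    rintro rfl
    rw [Polynomial.map_zero] at hP0
    exact hPm.ne_zero hP0.symm
  have hsp : IsSplittingField F P.SplittingField (Q * P0) :=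
    IsSplittingField.mul (K := K) P.SplittingField Q P0 hQs.ne_zero hP0'
  have hfd : FiniteDimensional F P.SplittingField :=
    IsSplittingField.finiteDimensional P.SplittingField (Q * P0)
  have hn : Normal F P.SplittingField := Normal.of_isSplittingField (Q * P0)
  have hg : IsGalois F P.SplittingField := { }
  have hroot : ∀ s ∈ P.rootSet P.SplittingField, ∃ g : Gal(K/F),
      s ^ (2 ^ n) = algebraMap K P.SplittingField (g f) := by
    intro s hs
    rw [mem_rootSet] at hs
    have h1 : aeval s (∏ g : Gal(K/F), (X ^ (2 ^ n) - C (g f))) = 0 := hs.2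
    rw [map_prod, Finset.prod_eq_zero_iff] at h1
    obtain ⟨g, -, hg⟩ := h1
    refine ⟨g, ?_⟩
    rw [map_sub, map_pow, aeval_X, aeval_C, sub_eq_zero] at hg
    exact hg
  have hadj : Algebra.adjoin K (P.rootSet P.SplittingField) = ⊤ := hspl.adjoin_rootSet
  refine ⟨P.SplittingField, inferInstance, inferInstance, inferInstance, inferInstance, hfd, hg,
    ?_, ?_, P.rootSet P.SplittingField, hroot, ?_⟩
  · intro σ
    obtain ⟨k, hk⟩ := hG (AlgEquiv.restrictNormalHom K σ)
    refine ⟨k + n, ?_⟩
    have hτK : ∀ x : K, (σ ^ 2 ^ k) (algebraMap K P.SplittingField x) =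
        algebraMap K P.SplittingField x := by
      intro x
      have h1 := AlgEquiv.restrictNormal_commutes (σ ^ 2 ^ k) K x
      rw [← h1]
      congr 1
      have h2 : (AlgEquiv.restrictNormalHom K (σ ^ 2 ^ k)) = 1 := by rw [map_pow, hk]
      exact congrArg (fun g : Gal(K/F) => g x) h2
    set τ := σ ^ 2 ^ k with hτ
    have hτ1 : ∀ s ∈ P.rootSet P.SplittingField, (τ ^ 2 ^ n) s = s := by
      intro s hs
      obtain ⟨g, hg⟩ := hroot s hs
      have h1 : (τ s) ^ (2 ^ n) = s ^ (2 ^ n) := by
        rw [← map_pow, hg, hτK]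
      obtain ⟨i, hi⟩ : ∃ i : ℕ, τ s = algebraMap F P.SplittingField (ζ ^ i) * s := by
        by_cases hs0 : s = 0
        · exact ⟨0, by rw [hs0, map_zero, mul_zero]⟩
        have h2 : (τ s / s) ^ (2 ^ n) = 1 := by
          rw [div_pow, h1, div_self (pow_ne_zero _ hs0)]
        have hζL : IsPrimitiveRoot (algebraMap F P.SplittingField ζ) (2 ^ n) :=
          hζ.map_of_injective (algebraMap F P.SplittingField).injective
        obtain ⟨i, -, hi⟩ := hζL.eq_pow_of_pow_eq_one h2
        refine ⟨i, ?_⟩
        rw [map_pow, hi]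
        field_simp
      have h3 : ∀ m : ℕ, (τ ^ m) s = algebraMap F P.SplittingField (ζ ^ (i * m)) * s := by
        intro m
        induction m with
        | zero => simp
        | succ m ih =>
          rw [pow_succ', AlgEquiv.mul_apply, ih, map_mul, AlgEquiv.commutes, hi, ← mul_assoc,
            ← map_mul, ← pow_add]
          ring_nf
      rw [h3, mul_comm i, pow_mul, hζ.pow_eq_one, one_pow, map_one, one_mul]
    rw [pow_add, pow_mul, ← hτ]
    have hτK' : ∀ (m : ℕ) (x : K), (τ ^ m) (algebraMap K P.SplittingField x) =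
        algebraMap K P.SplittingField x := by
      intro m
      induction m with
      | zero => intro x; rfl
      | succ m ih => intro x; rw [pow_succ', AlgEquiv.mul_apply, ih, hτK]
    let φ : P.SplittingField →ₐ[K] P.SplittingField :=
      { (τ ^ 2 ^ n : Gal(P.SplittingField/F)).toAlgHom.toRingHom with
        commutes' := fun x => hτK' _ x }
    have hφ : φ = AlgHom.id K _ := AlgHom.ext_of_adjoin_eq_top hadj fun s hs => hτ1 s hs
    ext x
    exact congrArg (fun g : P.SplittingField →ₐ[K] P.SplittingField => g x) hφ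
  · have hd : (X ^ (2 ^ n) - C f) ∣ P := by
      have := Finset.dvd_prod_of_mem (fun g : Gal(K/F) => (X ^ (2 ^ n) - C (g f))) (Finset.mem_univ 1)
      exact this
    have h1 : ((X ^ (2 ^ n) - C f).map (algebraMap K P.SplittingField)).Splits :=
      hspl.splits'.of_dvd (Polynomial.map_ne_zero hPm.ne_zero) (Polynomial.map_dvd _ hd)
    obtain ⟨h, hh⟩ := h1.exists_eval_eq_zero (by
      rw [degree_map, degree_X_pow_sub_C hN]
      exact_mod_cast hN.ne')
    refine ⟨h, ?_⟩
    rw [eval_map, eval₂_sub, eval₂_pow, eval₂_X, eval₂_C, sub_eq_zero] at hh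
    exact hh
  · rw [← IntermediateField.toSubalgebra_injective.eq_iff, IntermediateField.top_toSubalgebra]
    apply top_unique
    rw [← hadj]
    exact IntermediateField.algebra_adjoin_le_adjoin _ _

end Vale.Agent.P022.H783
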