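import Mathlib
import Vale.Agent.P022.H783.KeyD
import Vale.Agent.P022.H783.Lex
import Vale.Agent.P022.H619.L3.Val
import Vale.Agent.P022.H601.Quad
import Vale.Agent.P022.H964.L3.RootLS

/-!
# P022-L3, chapter G, [KEYF]: an element of `V` that is congruent to `1` is a `2^n`-th power
-/

open Polynomial IsLocalRing IntermediateField
open Vale.Agent.P022.H619.L3 (IsGauss ev)

namespace Vale.Agent.P022.H783

/-- the points over `a` of the curve with function field `K`, coordinate `p` -/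
def IsPt {k K : Type} [Field k] [Field K] [Algebra k K] (p : K) (a : k)
    (θ : K →ₐ[k] LaurentSeries k) : Prop :=
  θ p = HahnSeries.C a + HahnSeries.single 1 1

theorem mem_adjoin_lift {k K L : Type} [Field k] [Field K] [Field L] [Algebra k K] [Algebra k L]
    [Algebra K L] [IsScalarTower k K L] (p : K) {x : L} :
    x ∈ k⟮algebraMap K L p⟯ ↔ ∃ y ∈ k⟮p⟯, algebraMap K L y = x := by
  constructor
  · intro hx
    obtain ⟨A, B, rfl⟩ := (mem_adjoin_simple_iff k _).1 hx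
    refine ⟨aeval p A / aeval p B, (mem_adjoin_simple_iff k _).2 ⟨A, B, rfl⟩, ?_⟩
    rw [map_div₀, aeval_algebraMap_apply, aeval_algebraMap_apply]
  · rintro ⟨y, hy, rfl⟩
    obtain ⟨A, B, rfl⟩ := (mem_adjoin_simple_iff k _).1 hy
    refine (mem_adjoin_simple_iff k _).2 ⟨A, B, ?_⟩
    rw [map_div₀, aeval_algebraMap_apply, aeval_algebraMap_apply]

theorem keyF {k K : Type} [Field k] [IsAlgClosed k] [CharZero k] [Field K] [Algebra k K] (p : K)
    [FiniteDimensional k⟮p⟯ K] [IsGalois k⟮p⟯ K] (hG : IsPGroup 2 Gal(K/k⟮p⟯))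
    (O : ValuationSubring k) (h2 : (2 : k)⁻¹ ∈ O) (V : ValuationSubring K)
    (hV : IsGauss O V p) (S : Finset O) (hS : Set.InjOn (residue O) S)
    (hpt : ∀ a : k, (∀ s ∈ S, (s : k) ≠ a) → ∃ θ : K →ₐ[k] LaurentSeries k, IsPt p a θ)
    (n : ℕ) (f : K)
    (hord : ∀ a : k, (∀ s ∈ S, (s : k) ≠ a) → ∀ θ : K →ₐ[k] LaurentSeries k, IsPt p a θ →
      ((2 ^ n : ℕ) : ℤ) ∣ (θ f).order)
    (hf : V.valuation (f - 1) < 1) : ∃ g : K, g ^ (2 ^ n) = f := by
  classical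
  have hN : 0 < 2 ^ n := by positivity
  have : NeZero (2 ^ n) := ⟨hN.ne'⟩
  have : NeZero ((2 ^ n : ℕ) : k) := ⟨Nat.cast_ne_zero.2 hN.ne'⟩
  obtain ⟨ζ, hζ⟩ := HasEnoughRootsOfUnity.exists_primitiveRoot k (2 ^ n)
  have hcF : CharZero k⟮p⟯ := charZero_of_injective_algebraMap (algebraMap k k⟮p⟯).injective
  have hζF : IsPrimitiveRoot (algebraMap k k⟮p⟯ ζ) (2 ^ n) :=
    hζ.map_of_injective (algebraMap k k⟮p⟯).injective
  obtain ⟨L, iL, iFL, iKL, iT, iFD, iG, hGL, ⟨h, hh⟩, S₀, hS₀, htop⟩ := exists_L hG n hζF f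
  let _ : Algebra k L := ((algebraMap K L).comp (algebraMap k K)).toAlgebra
  have : IsScalarTower k K L := IsScalarTower.of_algebraMap_eq fun _ => rfl
  have hpL : ∀ a : k, (∀ s ∈ S, (s : k) ≠ a) → ∃ θ : L →ₐ[k] LaurentSeries k,
      θ (algebraMap K L p) = HahnSeries.C a + HahnSeries.single 1 1 := by
    intro a ha
    obtain ⟨θ, hθ⟩ := hpt a ha
    obtain ⟨θ', hθ'⟩ := Vale.Agent.P022.H964.L3.ext_roots (k := k) (K := K) (L := L) θ (2 ^ n) hN S₀
      (by
        intro s hs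
        obtain ⟨g, hg⟩ := hS₀ s hs
        refine ⟨g f, hg, ?_⟩
        have := hord a ha (θ.comp (g.toAlgHom.restrictScalars k)) (by
          change θ (g p) = _
          have : g p = p := by
            have := g.commutes (⟨p, mem_adjoin_simple_self k p⟩ : k⟮p⟯)
            exact this
          rw [this]; exact hθ)
        exact this) htop
    exact ⟨θ', by rw [hθ']; exact hθ⟩
  -- the valuation ring of the base
  let A : ValuationSubring k⟮p⟯ := V.comap (algebraMap k⟮p⟯ K)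
  have hA : ∀ x : k⟮p⟯, algebraMap k⟮p⟯ K x ∈ V ↔ x ∈ A := fun x => Iff.rfl
  have hOV : ∀ c : k, c ∈ O → algebraMap k K c ∈ V := by
    intro c hc
    have := hV.mem (C ⟨c, hc⟩)
    rw [ev, Polynomial.map_C, aeval_C] at this
    exact this
  have h2A : IsUnit (2 : A) := by
    have h1 : (2 : k⟮p⟯)⁻¹ ∈ A := by
      rw [← hA, map_inv₀, map_ofNat]
      have := hOV _ h2
      rwa [map_inv₀, map_ofNat] at this
    exact isUnit_iff_exists_inv.mpr ⟨⟨_, h1⟩, Subtype.ext (mul_inv_cancel₀ two_ne_zero)⟩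
  suffices hq : ∀ s : L, s ≠ 0 → s ∉ Set.range (algebraMap k⟮p⟯ L) →
      s ^ 2 ∈ Set.range (algebraMap k⟮p⟯ L) →
      ∃ c : k⟮p⟯, c ≠ 0 ∧ ∃ u : A, algebraMap A L u = (algebraMap k⟮p⟯ L c * s) ^ 2 ∧
        ∀ x : A, x ^ 2 - u ∉ maximalIdeal A by
    obtain ⟨g, hg⟩ := key A V hA h2A hGL hq n hζF f hf h hh
    refine ⟨g, (algebraMap K L).injective ?_⟩
    rw [map_pow, hg, hh]
  intro s hs0 hsF hs2
  obtain ⟨u0, hu0⟩ := hs2
  have hsa : s ^ 2 ∈ k⟮algebraMap K L p⟯ := by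
    rw [mem_adjoin_lift]
    exact ⟨u0, u0.2, by rw [← hu0, IsScalarTower.algebraMap_apply k⟮p⟯ K L]; rfl⟩
  obtain ⟨c, hc, hc0, I, hI, hsq⟩ := Vale.Agent.P022.H601.quad (algebraMap K L p)
    {a : k | ∃ s ∈ S, (s : k) = a} (by
      intro a ha
      obtain ⟨θ, hθ⟩ := hpL a (by
        intro s hs h; exact ha ⟨s, hs, h⟩)
      exact Vale.Agent.P022.H601.exists_ord_of_pt _ a θ.toRingHom (fun c => by
        change θ (algebraMap k L c) = _
        rw [AlgHom.commutes]; exact LaurentSeries.algebraMap_apply _ c) hθ) s hs0 hsa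
  rw [mem_adjoin_lift] at hc
  obtain ⟨c0, hc0F, rfl⟩ := hc
  have hc00 : c0 ≠ 0 := by rintro rfl; exact hc0 (map_zero _)
  -- the subset of `S`
  let S' : Finset O := S.filter fun s => (s : k) ∈ I
  have hIS : ∏ i ∈ I, (p - algebraMap k K i) = ∏ s ∈ S', (p - algebraMap k K (s : k)) := by
    symm
    refine Finset.prod_bij (fun s _ => (s : k)) ?_ ?_ ?_ ?_
    · intro s hs; exact (Finset.mem_filter.mp hs).2
    · intro s _ t _ h; exact Subtype.ext h
    · intro i hi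
      obtain ⟨s, hs, rfl⟩ := hI i hi
      exact ⟨s, Finset.mem_filter.mpr ⟨hs, hi⟩, rfl⟩
    · intro s _; rfl
  have hne : S'.Nonempty := by
    rw [Finset.nonempty_iff_ne_empty]
    intro he
    have h1 : ∏ i ∈ I, (p - algebraMap k K i) = 1 := by rw [hIS, he, Finset.prod_empty]
    have h3 : ∏ i ∈ I, (algebraMap K L p - algebraMap k L i) = 1 := by
      have := congrArg (algebraMap K L) h1
      rw [map_prod, map_one] at this
      rw [← this]
      refine Finset.prod_congr rfl fun i _ => ?_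
      rw [map_sub]; rfl
    rw [h3, mul_one] at hsq
    apply hsF
    rcases sq_eq_sq_iff_eq_or_eq_neg.mp hsq with h4 | h4
    · exact ⟨⟨c0, hc0F⟩, by rw [h4, IsScalarTower.algebraMap_apply k⟮p⟯ K L]; rfl⟩
    · exact ⟨-⟨c0, hc0F⟩, by rw [h4, map_neg, IsScalarTower.algebraMap_apply k⟮p⟯ K L]; rfl⟩
  have hprodF : ∏ s ∈ S', (p - algebraMap k K (s : k)) ∈ k⟮p⟯ :=
    prod_mem fun s _ => sub_mem (mem_adjoin_simple_self k p) (IntermediateField.algebraMap_mem _ _)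
  have hpV : p ∈ V := by
    have := hV.mem X
    rwa [ev, Polynomial.map_X, aeval_X] at this
  have hprodV : ∏ s ∈ S', (p - algebraMap k K (s : k)) ∈ V :=
    prod_mem fun s _ => sub_mem hpV (hOV _ s.2)
  refine ⟨(⟨c0, hc0F⟩ : k⟮p⟯)⁻¹, inv_ne_zero fun h => hc00 (congrArg Subtype.val h),
    ⟨⟨_, hprodF⟩, hprodV⟩, ?_, ?_⟩
  · rw [mul_pow, hsq, map_inv₀]
    have h3 : algebraMap k⟮p⟯ L ⟨c0, hc0F⟩ = algebraMap K L c0 := by
      rw [IsScalarTower.algebraMap_apply k⟮p⟯ K L]; rfl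
    rw [h3, inv_pow, ← mul_assoc, inv_mul_cancel₀ (pow_ne_zero _ hc0), one_mul]
    change algebraMap k⟮p⟯ L ⟨_, hprodF⟩ = _
    rw [IsScalarTower.algebraMap_apply k⟮p⟯ K L]
    change algebraMap K L (∏ s ∈ S', (p - algebraMap k K (s : k))) = _
    rw [← hIS, map_prod]
    refine Finset.prod_congr rfl fun i _ => ?_
    rw [map_sub]; rfl
  · intro x hx
    obtain ⟨P, Q, hPQ⟩ := (mem_adjoin_simple_iff k _).1 x.1.2
    obtain ⟨P', Q', hQ', hPQ'⟩ : ∃ P' Q' : k[X], Q' ≠ 0 ∧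
        ((x : k⟮p⟯) : K) * aeval p Q' = aeval p P' := by
      by_cases hQ0 : aeval p Q = 0
      · refine ⟨0, 1, one_ne_zero, ?_⟩
        rw [hPQ, hQ0, div_zero, zero_mul, map_zero]
      · refine ⟨P, Q, ?_, ?_⟩
        · rintro rfl; exact hQ0 (map_zero _)
        · rw [hPQ, div_mul_cancel₀ _ hQ0]
    refine hV.not_sq S' hne (hS.mono (by
      intro t ht; exact (Finset.mem_filter.mp ht).1)) (g := ((x : k⟮p⟯) : K)) x.2 hQ' hPQ' ?_
    rw [ValuationSubring.mem_nonunits_iff]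
    by_cases h0 : ((x : k⟮p⟯) : K) ^ 2 - ∏ s ∈ S', (p - algebraMap k K (s : k)) = 0
    · rw [h0, map_zero]; exact zero_lt_one
    rw [lt_one_iff V h0]
    intro hcon
    apply (IsLocalRing.mem_maximalIdeal _).mp hx
    have hyF : ((x : k⟮p⟯) : K) ^ 2 - ∏ s ∈ S', (p - algebraMap k K (s : k)) ∈ k⟮p⟯ :=
      sub_mem (pow_mem x.1.2 2) hprodF
    refine isUnit_iff_exists_inv.mpr ⟨⟨⟨_, inv_mem hyF⟩, hcon⟩, ?_⟩
    apply Subtype.ext
    apply Subtype.ext
    exact mul_inv_cancel₀ h0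

end Vale.Agent.P022.H783
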