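import Vale.Agent.P022.H783.HK
import Vale.Agent.P004H.H181.QExp

/-!
# P022: the operators `T_ℓ`, `⟨ℓ⟩` commute; `q`-expansion of `T_ℓ f`
-/

open scoped ModularForm MatrixGroups Manifold
open UpperHalfPlane Matrix CongruenceSubgroup
open Vale.Agent.P004H.H181 (Reps key1 no_unit fin_eq sl sl_coe hs_congr sum_root)

noncomputable section

namespace Vale.Agent.P022.H783

variable {N : ℕ}

/-- an integral matrix of determinant `ℓ`, `≡ [1, *; 0, *]` modulo `N`, lies in `Γ₁(N) β_i` -/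
theorem cosets (ℓ : PA N) {a' b' c' d' : ℤ} (hdet : a' * d' - b' * c' = ℓ.1)
    (hc : (N : ℤ) ∣ c') (ha' : (N : ℤ) ∣ a' - 1) (M : GL (Fin 2) ℝ)
    (hM : (M : Matrix (Fin 2) (Fin 2) ℝ) = !![(a' : ℝ), b'; c', d']) :
    ∃ i, ∃ γ' ∈ Gam N, M = γ' * (bH ℓ i).map (algebraMap ℚ ℝ) := by
  have hl1 := ℓ.2.1
  have hl0 : (ℓ.1 : ℤ) ≠ 0 := by exact_mod_cast hl1.ne_zero
  have hcopZ : IsCoprime (N : ℤ) (ℓ.1 : ℤ) := by
    rw [Nat.isCoprime_iff_coprime]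
    exact ℓ.coprime.symm
  obtain ⟨a0, b0, h0, hn⟩ := bH_none ℓ
  by_cases hh : (ℓ.1 : ℤ) ∣ a' ∧ (ℓ.1 : ℤ) ∣ c'
  · obtain ⟨⟨u, hu⟩, ⟨v, hv⟩⟩ := hh
    have e1 : u * d' - b' * v = 1 := by
      apply mul_left_cancel₀ hl0
      rw [hu, hv] at hdet
      linear_combination hdet
    have e2 : (N : ℤ) ∣ v := by
      rw [hv] at hc
      exact hcopZ.dvd_of_dvd_mul_left hc
    obtain ⟨v', hv'⟩ := e2
    have e3 : (N : ℤ) ∣ d' - ℓ.1 := by
      obtain ⟨w, hw⟩ := ha'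
      have : d' - ℓ.1 = (N : ℤ) * (b' * v' * ℓ.1 - w * d') := by
        have : a' = 1 + N * w := by linear_combination hw
        rw [this] at hdet
        have h5 : c' = ℓ.1 * (N * v') := by rw [hv, hv']
        rw [h5] at hdet
        linear_combination hdet
      exact ⟨_, this⟩
    have f1 : (u * ℓ.1 - b' * N) * (d' * a0 - v * b0) -
        (b' * a0 - u * b0) * (v * ℓ.1 - d' * N) = 1 := by
      linear_combination (a0 * ℓ.1 - b0 * N) * e1 + h0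
    have f2 : (N : ℤ) ∣ v * ℓ.1 - d' * N := by
      rw [hv']
      exact ⟨v' * ℓ.1 - d', by ring⟩
    have f3 : (N : ℤ) ∣ d' * a0 - v * b0 - 1 := by
      obtain ⟨w, hw⟩ := e3
      refine ⟨w * a0 - v' * b0 + b0, ?_⟩
      rw [hv']
      linear_combination a0 * hw + h0
    obtain ⟨γ', hγ', hγ2⟩ := mem_G1 N f1 f2 f3
    refine ⟨none, γ', hγ', ?_⟩
    apply Units.ext
    rw [hM, Units.val_mul, hγ2, hn, hu, hv]
    have h0' : (a0 : ℝ) * ℓ.1 - b0 * N = 1 := by exact_mod_cast h0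
    ext i j
    fin_cases i <;> fin_cases j <;> simp [Matrix.mul_apply, Fin.sum_univ_two]
    · linear_combination (-(ℓ.1 : ℝ) * u) * h0'
    · linear_combination (-(b' : ℝ)) * h0'
    · linear_combination (-(ℓ.1 : ℝ) * v) * h0'
    · linear_combination (-(d' : ℝ)) * h0'
  · obtain ⟨j, u, v, hu, hv⟩ := key1 ℓ.1 hl1 hdet hh
    have e1 : a' * v - u * c' = 1 := by
      apply mul_left_cancel₀ hl0
      rw [hu, hv] at hdet
      linear_combination hdet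
    have e2 : (N : ℤ) ∣ v - 1 := by
      obtain ⟨w, hw⟩ := ha'
      obtain ⟨t, ht⟩ := hc
      refine ⟨u * t - w * v, ?_⟩
      rw [ht] at e1
      linear_combination e1 - v * hw
    obtain ⟨γ', hγ', hγ2⟩ := mem_G1 N e1 hc e2
    refine ⟨some j, γ', hγ', ?_⟩
    apply Units.ext
    rw [hM, Units.val_mul, hγ2, bH, tri_coe, hu, hv]
    ext i j
    fin_cases i <;> fin_cases j <;> simp [Matrix.mul_apply, Fin.sum_univ_two]

/-- the integral entries of the representatives -/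
theorem bH_int (ℓ : PA N) (i : Option (Fin ℓ.1)) : ∃ p q r t : ℤ,
    (((bH ℓ i).map (algebraMap ℚ ℝ) : GL (Fin 2) ℝ) : Matrix (Fin 2) (Fin 2) ℝ) =
      !![(p : ℝ), q; r, t] ∧ p * t - q * r = ℓ.1 ∧ (N : ℤ) ∣ r ∧ (N : ℤ) ∣ p - 1 := by
  cases i with
  | none =>
    obtain ⟨a0, b0, h0, hn⟩ := bH_none ℓ
    refine ⟨a0 * ℓ.1, b0, N * ℓ.1, ℓ.1, ?_, ?_, dvd_mul_right _ _, ⟨b0, ?_⟩⟩
    · rw [hn]
      push_cast
      rfl
    · linear_combination (ℓ.1 : ℤ) * h0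
    · linear_combination h0
  | some j =>
    refine ⟨1, (j : ℕ), 0, ℓ.1, ?_, by ring, dvd_zero _, by simp⟩
    rw [bH, tri_coe]
    push_cast
    rfl

theorem mapGL_coe' (s : SL(2, ℤ)) :
    ((SpecialLinearGroup.mapGL ℝ s : GL (Fin 2) ℝ) : Matrix (Fin 2) (Fin 2) ℝ) =
      !![((s 0 0 : ℤ) : ℝ), ((s 0 1 : ℤ) : ℝ); ((s 1 0 : ℤ) : ℝ), ((s 1 1 : ℤ) : ℝ)] := by
  rw [SpecialLinearGroup.mapGL_coe_matrix]
  ext i j
  fin_cases i <;> fin_cases j <;> rfl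

theorem mapGL_inv_coe (s : SL(2, ℤ)) :
    (((SpecialLinearGroup.mapGL ℝ s)⁻¹ : GL (Fin 2) ℝ) : Matrix (Fin 2) (Fin 2) ℝ) =
      !![((s 1 1 : ℤ) : ℝ), -((s 0 1 : ℤ) : ℝ); -((s 1 0 : ℤ) : ℝ), ((s 0 0 : ℤ) : ℝ)] := by
  rw [← map_inv, mapGL_coe', SpecialLinearGroup.SL2_inv_expl]
  ext i j
  fin_cases i <;> fin_cases j
  · rfl
  · exact Int.cast_neg _
  · exact Int.cast_neg _
  · rfl

/-- conjugation by an element of `Γ₀(N)` permutes the cosets -/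
theorem conj_cosets (ℓ : PA N) {s : SL(2, ℤ)} (hs : s ∈ Gamma0 N) (i : Option (Fin ℓ.1)) :
    ∃ j, ∃ γ ∈ Gam N, (bH ℓ i).map (algebraMap ℚ ℝ) * SpecialLinearGroup.mapGL ℝ s =
      γ * SpecialLinearGroup.mapGL ℝ s * (bH ℓ j).map (algebraMap ℚ ℝ) := by
  obtain ⟨p, q, r, t, e, hdet, hr, hp⟩ := bH_int ℓ i
  obtain ⟨c', hc'⟩ : (N : ℤ) ∣ s 1 0 := (ZMod.intCast_zmod_eq_zero_iff_dvd _ N).1 (Gamma0_mem.1 hs)
  have hsd : (s 0 0 : ℤ) * s 1 1 - s 0 1 * s 1 0 = 1 := by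
    have := s.det_coe
    rwa [Matrix.det_fin_two] at this
  obtain ⟨r', hr'⟩ := hr
  obtain ⟨p', hp'⟩ := hp
  set A := s 0 0
  set B := s 0 1
  set C := s 1 0
  set D := s 1 1
  -- `s⁻¹ β s`
  obtain ⟨j, γ, hγ, h⟩ := cosets ℓ
    (a' := D * (p * A + q * C) - B * (r * A + t * C))
    (b' := D * (p * B + q * D) - B * (r * B + t * D))
    (c' := -C * (p * A + q * C) + A * (r * A + t * C))
    (d' := -C * (p * B + q * D) + A * (r * B + t * D))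
    (by linear_combination (A * D - B * C + 1) * (p * t - q * r) * hsd + hdet)
    (by
      refine ⟨-c' * (p * A + q * C) + A * (r' * A + t * c'), ?_⟩
      rw [hr', hc']
      ring)
    (by
      refine ⟨p' * A * D + D * q * c' - B * (r' * A + t * c') + B * c', ?_⟩
      have : p = 1 + N * p' := by linear_combination hp'
      rw [this, hr']
      rw [hc'] at hsd ⊢
      linear_combination hsd)
    ((SpecialLinearGroup.mapGL ℝ s)⁻¹ * (bH ℓ i).map (algebraMap ℚ ℝ) *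
      SpecialLinearGroup.mapGL ℝ s)
    (by
      rw [Units.val_mul, Units.val_mul, e, mapGL_inv_coe, mapGL_coe']
      ext i j
      fin_cases i <;> fin_cases j <;>
        simp [Matrix.mul_apply, Fin.sum_univ_two] <;> ring)
  obtain ⟨g, hg, rfl⟩ := hγ
  refine ⟨j, SpecialLinearGroup.mapGL ℝ (s * g * s⁻¹),
    Subgroup.mem_map_of_mem _ (conj_mem hs hg), ?_⟩
  calc (bH ℓ i).map (algebraMap ℚ ℝ) * SpecialLinearGroup.mapGL ℝ s
      = SpecialLinearGroup.mapGL ℝ s * ((SpecialLinearGroup.mapGL ℝ s)⁻¹ *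
        (bH ℓ i).map (algebraMap ℚ ℝ) * SpecialLinearGroup.mapGL ℝ s) := by group
    _ = _ := by
      rw [h, map_mul, map_mul, map_inv]
      group

/-- `T_ℓ` commutes with every `f ↦ f | s`, `s ∈ Γ₀(N)` -/
theorem Tl_slG0 [NeZero N] (k : ℕ) (ℓ : PA N) {s : SL(2, ℤ)} (hs : s ∈ Gamma0 N) (f : MF N k) :
    Tl k ℓ (slG0 hs k f) = slG0 hs k (Tl k ℓ f) := by
  choose σ γ hγ hσ using fun i => conj_cosets ℓ hs i
  have inj : Function.Injective σ := by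
    intro i j h
    have h1 := hσ i
    have h2 := hσ j
    rw [h] at h1
    refine (repsH ℓ).uniq i j (γ i * (γ j)⁻¹) ((Gam N).mul_mem (hγ i) ((Gam N).inv_mem (hγ j))) ?_
    calc (bH ℓ i).map (algebraMap ℚ ℝ)
        = ((bH ℓ i).map (algebraMap ℚ ℝ) * SpecialLinearGroup.mapGL ℝ s) *
          (SpecialLinearGroup.mapGL ℝ s)⁻¹ := by group
      _ = γ i * (γ j)⁻¹ * ((γ j) * SpecialLinearGroup.mapGL ℝ s *
          (bH ℓ (σ j)).map (algebraMap ℚ ℝ)) * (SpecialLinearGroup.mapGL ℝ s)⁻¹ := by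
        rw [h1]
        group
      _ = _ := by
        rw [← h2]
        group
  have bij : Function.Bijective σ := Finite.injective_iff_bijective.1 inj
  have key : (((Tl k ℓ f : MF N k) : ℍ → ℂ) ∣[(k : ℤ)] (SpecialLinearGroup.mapGL ℝ s)) =
      ((Tl k ℓ (slG0 hs k f) : MF N k) : ℍ → ℂ) := by
    rw [Tl, hSum_coe, hSum_coe, slG0_coe, SlashAction.sum_slash]
    have e1 : ∀ i, ((f : ℍ → ℂ) ∣[(k : ℤ)] ((bH ℓ i).map (algebraMap ℚ ℝ))) ∣[(k : ℤ)]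
        (SpecialLinearGroup.mapGL ℝ s) =
        ((f : ℍ → ℂ) ∣[(k : ℤ)] (SpecialLinearGroup.mapGL ℝ s)) ∣[(k : ℤ)]
          ((bH ℓ (σ i)).map (algebraMap ℚ ℝ)) := by
      intro i
      rw [← SlashAction.slash_mul, hσ, SlashAction.slash_mul, SlashAction.slash_mul]
      congr 2
      exact f.slash_action_eq' _ (hγ i)
    simp_rw [e1]
    exact (Equiv.ofBijective σ bij).sum_comp (fun i => ((f : ℍ → ℂ) ∣[(k : ℤ)]
      (SpecialLinearGroup.mapGL ℝ s)) ∣[(k : ℤ)] ((bH ℓ i).map (algebraMap ℚ ℝ)))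
  apply DFunLike.coe_injective
  rw [← key, slG0_coe]
  rfl

/-- `⟨ℓ⟩` and `⟨ℓ'⟩` commute -/
theorem dia_dia [NeZero N] (k : ℕ) (ℓ ℓ' : PA N) (f : MF N k) :
    dia k ℓ (dia k ℓ' f) = dia k ℓ' (dia k ℓ f) := by
  have key : ∀ s t : SL(2, ℤ), s ∈ Gamma0 N → t ∈ Gamma0 N →
      ((f : ℍ → ℂ) ∣[(k : ℤ)] s) ∣[(k : ℤ)] t = ((f : ℍ → ℂ) ∣[(k : ℤ)] t) ∣[(k : ℤ)] s := by
    intro s t hs ht
    have hm : (s * t) * (t * s)⁻¹ ∈ Gamma1 N := by
      have h0 : (s * t) * (t * s)⁻¹ ∈ Gamma0 N :=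
        (Gamma0 N).mul_mem ((Gamma0 N).mul_mem hs ht) ((Gamma0 N).inv_mem ((Gamma0 N).mul_mem ht hs))
      have h1 : (⟨_, h0⟩ : Gamma0 N) ∈ Gamma1' N := by
        rw [Gamma1_mem']
        have : (⟨_, h0⟩ : Gamma0 N) = (⟨s, hs⟩ * ⟨t, ht⟩) * (⟨t, ht⟩ * ⟨s, hs⟩)⁻¹ := rfl
        rw [this]
        have hu : ∀ x y : Gamma0 N, Gamma0Map N ((x * y) * (y * x)⁻¹) = 1 := by
          intro x y
          have h2 : Gamma0Map N (y * x) * Gamma0Map N (y * x)⁻¹ = 1 := by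
            rw [← map_mul, mul_inv_cancel, map_one]
          rw [map_mul, map_mul, mul_comm (Gamma0Map N x), ← map_mul, h2]
        exact hu _ _
      rw [Gamma1_to_Gamma0_mem] at h1
      rw [Gamma1_mem]
      exact h1
    have h2 : (f : ℍ → ℂ) ∣[(k : ℤ)] ((s * t) * (t * s)⁻¹) = f :=
      f.slash_action_eq' _ (Subgroup.mem_map_of_mem (SpecialLinearGroup.mapGL ℝ) hm)
    rw [← SlashAction.slash_mul, ← SlashAction.slash_mul]
    have h3 : s * t = ((s * t) * (t * s)⁻¹) * (t * s) := by group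
    rw [h3, SlashAction.slash_mul, h2]
  apply DFunLike.coe_injective
  rw [dia_coe, dia_coe, dFun, dFun, dia_coe, dia_coe, dFun, dFun]
  exact key _ _ (gd_mem _) (gd_mem _)

end Vale.Agent.P022.H783
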