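import Vale.Agent.P022.H783.Comm

/-!
# P022: `q`-expansion of `T_ℓ f` in any weight, and `T_ℓ T_ℓ' = T_ℓ' T_ℓ`
-/

open scoped ModularForm MatrixGroups Manifold
open UpperHalfPlane Matrix CongruenceSubgroup
open Vale.Agent.P004H.H181 (hs_congr sum_root)

noncomputable section

namespace Vale.Agent.P022.H783

/-- `q ^ m` -/
abbrev qq (τ : ℍ) : ℂ := Function.Periodic.qParam 1 τ

theorem slash_tri {f : ℍ → ℂ} {a b d : ℚ} (h : a * d ≠ 0) (ha : 0 < a) (hd : 0 < d) (k : ℤ)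
    (τ : ℍ) : ∃ τ' : ℍ, (τ' : ℂ) = (a * τ + b) / d ∧
      (f ∣[k] ((tri a b d h).map (algebraMap ℚ ℝ))) τ =
        (a * d : ℂ) ^ (k - 1) * (d : ℂ) ^ (-k) * f τ' := by
  set g : GL (Fin 2) ℝ := (tri a b d h).map (algebraMap ℚ ℝ) with hg
  have hM : (g : Matrix (Fin 2) (Fin 2) ℝ) = !![(a : ℝ), b; 0, d] := tri_coe a b d h
  have hdet : g.det.val = a * d := tri_det a b d h
  have hpos : 0 < g.det.val := by
    rw [hdet]; exact_mod_cast mul_pos ha hd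
  refine ⟨g • τ, ?_, ?_⟩
  · rw [UpperHalfPlane.coe_smul_of_det_pos hpos]
    simp [UpperHalfPlane.num, UpperHalfPlane.denom, hM]
  · rw [ModularForm.slash_apply]
    have hσ : σ g (f (g • τ)) = f (g • τ) := by
      rw [σ, if_pos hpos]
      rfl
    rw [hσ, hdet]
    have hde : UpperHalfPlane.denom g τ = d := by
      simp [UpperHalfPlane.denom, hM]
    rw [hde]
    have : |(a : ℝ) * d| = a * d := abs_of_pos (by exact_mod_cast mul_pos ha hd)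
    rw [this]
    push_cast
    ring

/-- the `U_ℓ` part -/
theorem hasSum_U {l : ℕ} (hl : l.Prime) (k : ℤ) {f : ℍ → ℂ} {c : ℕ → ℂ}
    (hf : ∀ τ : ℍ, HasSum (fun m => c m * qq τ ^ m) (f τ)) (τ : ℍ) :
    HasSum (fun m => c (l * m) * qq τ ^ m) ((∑ j : Fin l, f ∣[k] (up l hl.ne_zero j)) τ) := by
  have hp0 : (l : ℂ) ≠ 0 := by exact_mod_cast hl.ne_zero
  have h1 : ∀ j : Fin l, HasSum (fun m => c m * (Complex.exp (2 * Real.pi * Complex.I *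
      (m * τ / l)) * (Complex.exp (2 * Real.pi * Complex.I * (m * (j : ℕ) / l)) / l)))
      ((f ∣[k] (up l hl.ne_zero j)) τ) := by
    intro j
    obtain ⟨τ', e1, e2⟩ := slash_tri (f := f) (a := 1) (b := ((j : ℕ) : ℚ)) (d := (l : ℚ))
      (by simpa using hl.ne_zero) one_pos (by exact_mod_cast hl.pos) k τ
    rw [up, e2]
    have e4 : (((1 : ℚ) : ℂ) * ((l : ℚ) : ℂ)) ^ (k - 1) * (((l : ℚ) : ℂ)) ^ (-k) = (l : ℂ)⁻¹ := by
      push_cast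
      rw [one_mul, ← zpow_add₀ hp0, show k - 1 + -k = -1 by ring, _root_.zpow_neg_one]
    rw [e4]
    have h := (hf τ').mul_left ((l : ℂ)⁻¹)
    refine hs_congr h fun m => ?_
    rw [qq, Function.Periodic.qParam, ← Complex.exp_nat_mul, e1]
    have e3 : (m : ℂ) * (2 * Real.pi * Complex.I * ((((1 : ℚ) : ℂ) * τ + (((j : ℕ) : ℚ) : ℂ)) /
        ((l : ℚ) : ℂ)) / ((1 : ℝ) : ℂ)) = 2 * Real.pi * Complex.I * (m * τ / l) +
          2 * Real.pi * Complex.I * (m * (j : ℕ) / l) := by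
      push_cast
      field_simp
    rw [e3, Complex.exp_add]
    ring
  have h2 := hasSum_sum (fun j (_ : j ∈ (Finset.univ : Finset (Fin l))) => h1 j)
  have h3 : HasSum (fun m : ℕ => if l ∣ m then c m * Complex.exp (2 * Real.pi * Complex.I *
      (m * τ / l)) else 0)
      ((∑ j : Fin l, f ∣[k] (up l hl.ne_zero j)) τ) := by
    rw [Finset.sum_apply]
    convert h2 using 2 with m
    rw [← Finset.mul_sum, ← Finset.mul_sum, ← Finset.sum_div, sum_root l hl m]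
    split_ifs with h
    · field_simp
    · simp
  have inj : Function.Injective (fun m : ℕ => l * m) := fun a b h =>
    Nat.eq_of_mul_eq_mul_left hl.pos h
  have h4 := (inj.hasSum_iff (f := fun m : ℕ => if l ∣ m then c m * Complex.exp (2 * Real.pi *
    Complex.I * (m * τ / l)) else 0) (by
      intro x hx
      rw [if_neg]
      rintro ⟨y, rfl⟩
      exact hx ⟨y, rfl⟩)).2 h3
  convert h4 using 2 with m
  simp only [Function.comp_apply, dvd_mul_right, if_true]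
  rw [qq, Function.Periodic.qParam, ← Complex.exp_nat_mul]
  congr 2
  push_cast
  field_simp

/-- the `V_ℓ` part -/
theorem hasSum_V {l : ℕ} (hl : l.Prime) (k : ℤ) {f : ℍ → ℂ} {c : ℕ → ℂ}
    (hf : ∀ τ : ℍ, HasSum (fun m => c m * qq τ ^ m) (f τ)) (τ : ℍ) :
    HasSum (fun m => (if l ∣ m then (l : ℂ) ^ (k - 1) * c (m / l) else 0) * qq τ ^ m)
      ((f ∣[k] (dn l hl.ne_zero)) τ) := by
  have hp0 : (l : ℂ) ≠ 0 := by exact_mod_cast hl.ne_zero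
  obtain ⟨τ', e1, e2⟩ := slash_tri (f := f) (a := (l : ℚ)) (b := 0) (d := 1)
      (by simpa using hl.ne_zero) (by exact_mod_cast hl.pos) one_pos k τ
  rw [dn, e2]
  have inj : Function.Injective (fun m : ℕ => l * m) := fun a b h =>
    Nat.eq_of_mul_eq_mul_left hl.pos h
  refine (inj.hasSum_iff ?_).1 ?_
  · intro x hx
    rw [if_neg, zero_mul]
    rintro ⟨y, rfl⟩
    exact hx ⟨y, rfl⟩
  · have h := (hf τ').mul_left ((((l : ℚ) : ℂ) * ((1 : ℚ) : ℂ)) ^ (k - 1) * ((1 : ℚ) : ℂ) ^ (-k))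
    refine hs_congr h fun m => ?_
    simp only [Function.comp_apply, dvd_mul_right, if_true]
    rw [Nat.mul_div_cancel_left _ hl.pos, qq, qq, Function.Periodic.qParam,
      Function.Periodic.qParam, ← Complex.exp_nat_mul, ← Complex.exp_nat_mul, e1]
    have e3 : ((l * m : ℕ) : ℂ) * (2 * Real.pi * Complex.I * τ / ((1 : ℝ) : ℂ)) =
        (m : ℂ) * (2 * Real.pi * Complex.I * ((((l : ℚ) : ℂ) * τ + ((0 : ℚ) : ℂ)) /
        ((1 : ℚ) : ℂ)) / ((1 : ℝ) : ℂ)) := by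
      push_cast
      ring
    rw [e3]
    push_cast
    rw [mul_one, _root_.one_zpow, mul_one]
    ring

/-- **the `q`-expansion of `T_ℓ f`** -/
theorem hasSum_T {N : ℕ} (k : ℕ) (ℓ : PA N) {f : ℍ → ℂ} {c c' : ℕ → ℂ}
    (hf : ∀ τ : ℍ, HasSum (fun m => c m * qq τ ^ m) (f τ))
    (hf' : ∀ τ : ℍ, HasSum (fun m => c' m * qq τ ^ m) (dFun N k ℓ f τ)) (τ : ℍ) :
    HasSum (fun m => (c (ℓ.1 * m) + if ℓ.1 ∣ m then (ℓ.1 : ℂ) ^ ((k : ℤ) - 1) * c' (m / ℓ.1)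
      else 0) * qq τ ^ m) (tFun N k ℓ f τ) := by
  have h := (hasSum_U ℓ.2.1 k hf τ).add (hasSum_V ℓ.2.1 k hf' τ)
  rw [tFun, Pi.add_apply]
  convert h using 2 with m
  rw [add_mul]

theorem one_mem_periods {N : ℕ} : (1 : ℝ) ∈ (Gam N).strictPeriods := by
  rw [Subgroup.mem_strictPeriods_iff]
  obtain ⟨γ, hγ, e⟩ := mem_G1 N (a := 1) (b := 1) (c := 0) (d := 1) (by norm_num)
    (dvd_zero _) (by simp)
  convert hγ
  apply Units.ext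
  rw [e]
  ext i j
  fin_cases i <;> fin_cases j <;> simp [GeneralLinearGroup.upperRightHom]

theorem hasSum_form {N : ℕ} [NeZero N] {k : ℕ} (f : MF N k) (τ : ℍ) :
    HasSum (fun m => (qExpansion 1 f).coeff m * qq τ ^ m) (f τ) := by
  have : Fact (IsCusp OnePoint.infty (Gam N)) :=
    ⟨(Gam N).isCusp_of_mem_strictPeriods one_pos one_mem_periods⟩
  exact ModularForm.hasSum_qExpansion (f := f) one_pos one_mem_periods τ

theorem hasSum_Tl {N : ℕ} [NeZero N] (k : ℕ) (ℓ : PA N) {f : MF N k} {c c' : ℕ → ℂ}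
    (hf : ∀ τ : ℍ, HasSum (fun m => c m * qq τ ^ m) (f τ))
    (hf' : ∀ τ : ℍ, HasSum (fun m => c' m * qq τ ^ m) (dia k ℓ f τ)) (τ : ℍ) :
    HasSum (fun m => (c (ℓ.1 * m) + if ℓ.1 ∣ m then (ℓ.1 : ℂ) ^ ((k : ℤ) - 1) * c' (m / ℓ.1)
      else 0) * qq τ ^ m) (Tl k ℓ f τ) := by
  rw [Tl_coe]
  refine hasSum_T k ℓ hf ?_ τ
  rw [← dia_coe]
  exact hf'

/-- `T_ℓ` and `T_ℓ'` commute -/
theorem Tl_Tl {N : ℕ} [NeZero N] (k : ℕ) (ℓ ℓ' : PA N) (f : MF N k) :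
    Tl k ℓ (Tl k ℓ' f) = Tl k ℓ' (Tl k ℓ f) := by
  by_cases hll : ℓ = ℓ'
  · rw [hll]
  have hne : ℓ.1 ≠ ℓ'.1 := fun h => hll (Subtype.ext h)
  have hcop : Nat.Coprime ℓ.1 ℓ'.1 := (Nat.coprime_primes ℓ.2.1 ℓ'.2.1).2 hne
  ext τ
  set c := fun m => (qExpansion 1 f).coeff m with hc
  set c1 := fun m => (qExpansion 1 (dia k ℓ f)).coeff m with hc1
  set c2 := fun m => (qExpansion 1 (dia k ℓ' f)).coeff m with hc2
  set c12 := fun m => (qExpansion 1 (dia k ℓ (dia k ℓ' f))).coeff m with hc12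
  have A : ∀ τ, HasSum (fun m => c m * qq τ ^ m) (f τ) := hasSum_form f
  have B1 : ∀ τ, HasSum (fun m => c1 m * qq τ ^ m) (dia k ℓ f τ) := hasSum_form _
  have B2 : ∀ τ, HasSum (fun m => c2 m * qq τ ^ m) (dia k ℓ' f τ) := hasSum_form _
  have B12 : ∀ τ, HasSum (fun m => c12 m * qq τ ^ m) (dia k ℓ (dia k ℓ' f) τ) := hasSum_form _
  have B21 : ∀ τ, HasSum (fun m => c12 m * qq τ ^ m) (dia k ℓ' (dia k ℓ f) τ) := by
    rw [dia_dia k ℓ' ℓ f]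
    exact B12
  have e1 : dia k ℓ (Tl k ℓ' f) = Tl k ℓ' (dia k ℓ f) := (Tl_slG0 k ℓ' (gd_mem ℓ.coprime) f).symm
  have e2 : dia k ℓ' (Tl k ℓ f) = Tl k ℓ (dia k ℓ' f) := (Tl_slG0 k ℓ (gd_mem ℓ'.coprime) f).symm
  have T2 := hasSum_Tl k ℓ' A B2
  have T1 := hasSum_Tl k ℓ A B1
  have D2 := hasSum_Tl k ℓ' B1 B21
  have D1 := hasSum_Tl k ℓ B2 B12
  rw [← e1] at D2
  rw [← e2] at D1
  have L := hasSum_Tl k ℓ T2 D2 τ
  have R := hasSum_Tl k ℓ' T1 D1 τ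
  refine L.unique ?_
  convert R using 2 with m
  congr 1
  have h1 : ℓ'.1 ∣ ℓ.1 * m ↔ ℓ'.1 ∣ m := hcop.symm.dvd_mul_left
  have h2 : ℓ.1 ∣ ℓ'.1 * m ↔ ℓ.1 ∣ m := hcop.dvd_mul_left
  simp only [h1, h2]
  have hx : ℓ.1 * (ℓ'.1 * m) = ℓ'.1 * (ℓ.1 * m) := by ring
  rw [mul_comm (ℓ'.1) (ℓ.1 * m), mul_assoc, mul_comm m ℓ'.1, hx]
  by_cases a1 : ℓ.1 ∣ m <;> by_cases a2 : ℓ'.1 ∣ m
  · obtain ⟨x, rfl⟩ := a1
    obtain ⟨y, rfl⟩ : ℓ'.1 ∣ x := hcop.symm.dvd_of_dvd_mul_left a2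
    have b1 : ℓ.1 * (ℓ'.1 * y) / ℓ.1 = ℓ'.1 * y := Nat.mul_div_cancel_left _ ℓ.2.1.pos
    have b2 : ℓ.1 * (ℓ'.1 * y) / ℓ'.1 = ℓ.1 * y := by
      rw [show ℓ.1 * (ℓ'.1 * y) = ℓ'.1 * (ℓ.1 * y) by ring]
      exact Nat.mul_div_cancel_left _ ℓ'.2.1.pos
    have b3 : ℓ.1 * (ℓ.1 * (ℓ'.1 * y)) / ℓ'.1 = ℓ.1 * (ℓ.1 * y) := by
      rw [show ℓ.1 * (ℓ.1 * (ℓ'.1 * y)) = ℓ'.1 * (ℓ.1 * (ℓ.1 * y)) by ring]
      exact Nat.mul_div_cancel_left _ ℓ'.2.1.pos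
    have b4 : ℓ'.1 * (ℓ.1 * (ℓ'.1 * y)) / ℓ.1 = ℓ'.1 * (ℓ'.1 * y) := by
      rw [show ℓ'.1 * (ℓ.1 * (ℓ'.1 * y)) = ℓ.1 * (ℓ'.1 * (ℓ'.1 * y)) by ring]
      exact Nat.mul_div_cancel_left _ ℓ.2.1.pos
    have b5 : ℓ'.1 * y / ℓ'.1 = y := Nat.mul_div_cancel_left _ ℓ'.2.1.pos
    have b6 : ℓ.1 * y / ℓ.1 = y := Nat.mul_div_cancel_left _ ℓ.2.1.pos
    have d1 : ℓ.1 ∣ ℓ.1 * (ℓ'.1 * y) := dvd_mul_right _ _
    have d2 : ℓ'.1 ∣ ℓ.1 * (ℓ'.1 * y) := ⟨ℓ.1 * y, by ring⟩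
    have d3 : ℓ'.1 ∣ ℓ'.1 * y := dvd_mul_right _ _
    have d4 : ℓ.1 ∣ ℓ.1 * y := dvd_mul_right _ _
    simp only [b1, b2, b3, b4, b5, b6, d1, d2, d3, d4, if_true]
    ring
  · have d3 : ¬ ℓ'.1 ∣ m / ℓ.1 := by
      intro h
      obtain ⟨x, rfl⟩ := a1
      rw [Nat.mul_div_cancel_left _ ℓ.2.1.pos] at h
      exact a2 (h.mul_left _)
    simp only [a1, a2, d3, if_true, if_false]
    obtain ⟨x, rfl⟩ := a1
    rw [Nat.mul_div_cancel_left _ ℓ.2.1.pos,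
      show ℓ'.1 * (ℓ.1 * x) = ℓ.1 * (ℓ'.1 * x) by ring, Nat.mul_div_cancel_left _ ℓ.2.1.pos]
    ring
  · have d3 : ¬ ℓ.1 ∣ m / ℓ'.1 := by
      intro h
      obtain ⟨x, rfl⟩ := a2
      rw [Nat.mul_div_cancel_left _ ℓ'.2.1.pos] at h
      exact a1 (h.mul_left _)
    simp only [a1, a2, d3, if_true, if_false]
    obtain ⟨x, rfl⟩ := a2
    rw [Nat.mul_div_cancel_left _ ℓ'.2.1.pos,
      show ℓ.1 * (ℓ'.1 * x) = ℓ'.1 * (ℓ.1 * x) by ring, Nat.mul_div_cancel_left _ ℓ'.2.1.pos]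
    ring
  · simp only [a1, a2, if_false]

end Vale.Agent.P022.H783
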