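import Vale.Agent.P022.H472.Lit
import Vale.Agent.P004H.H181.Rep

/-!
# P022 [HK]: diamond and Hecke operators on `M_k(Γ₁(N))`
-/

open scoped ModularForm MatrixGroups Manifold
open UpperHalfPlane Matrix CongruenceSubgroup
open Vale.Agent.P004H.H181 (Reps sum_slash_inv isCusp_smul_rat key1 no_unit fin_eq sl sl_coe)

noncomputable section

namespace Vale.Agent.P022.H783

/-- a finite sum of slashes, permuted by `Γ`, as a linear endomorphism of `M_k(Γ)` -/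
def hSum {ι : Type} [Fintype ι] (Γ : Subgroup (GL (Fin 2) ℝ)) [Γ.IsArithmetic] [Γ.HasDetOne]
    (β : ι → GL (Fin 2) ℚ) (hβ : ∀ i, 0 < ((β i).map (algebraMap ℚ ℝ)).det.val)
    (H : Reps Γ (fun i => (β i).map (algebraMap ℚ ℝ))) (k : ℤ) :
    ModularForm Γ k →ₗ[ℂ] ModularForm Γ k where
  toFun f :=
    { toFun := ∑ i, (f : ℍ → ℂ) ∣[k] ((β i).map (algebraMap ℚ ℝ))
      slash_action_eq' := fun γ hγ =>
        sum_slash_inv H (fun γ hγ => f.slash_action_eq' γ hγ) γ hγ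
      holo' := by
        refine MDifferentiable.sum fun i _ => ?_
        exact f.holo'.slash k _
      bdd_at_cusps' := fun {c} hc => by
        intro γ hγ
        rw [IsBoundedAtImInfty, Filter.BoundedAtFilter, SlashAction.sum_slash]
        have h2 : ∀ i ∈ (Finset.univ : Finset ι),
            (((f : ℍ → ℂ) ∣[k] ((β i).map (algebraMap ℚ ℝ))) ∣[k] γ) =O[atImInfty]
              (1 : ℍ → ℝ) := by
          intro i _
          have h1 := f.bdd_at_cusps' (isCusp_smul_rat hc (β i))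
          exact OnePoint.IsBoundedAt.smul_iff.1 h1 γ hγ
        exact Asymptotics.IsBigO.sum h2 }
  map_add' f g := by
    ext τ
    change (∑ i, ((f + g : ModularForm Γ k) : ℍ → ℂ) ∣[k] ((β i).map (algebraMap ℚ ℝ))) τ =
      (∑ i, (f : ℍ → ℂ) ∣[k] ((β i).map (algebraMap ℚ ℝ))) τ +
        (∑ i, (g : ℍ → ℂ) ∣[k] ((β i).map (algebraMap ℚ ℝ))) τ
    rw [FunLike.coe_add]
    simp only [SlashAction.add_slash, Finset.sum_add_distrib, Pi.add_apply]
  map_smul' c f := by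
    ext τ
    change (∑ i, ((c • f : ModularForm Γ k) : ℍ → ℂ) ∣[k] ((β i).map (algebraMap ℚ ℝ))) τ =
      c • (∑ i, (f : ℍ → ℂ) ∣[k] ((β i).map (algebraMap ℚ ℝ))) τ
    rw [FunLike.coe_smul]
    have : ∀ i, (c • (f : ℍ → ℂ)) ∣[k] ((β i).map (algebraMap ℚ ℝ)) =
        c • ((f : ℍ → ℂ) ∣[k] ((β i).map (algebraMap ℚ ℝ))) := by
      intro i
      rw [ModularForm.smul_slash, σ, if_pos (hβ i)]
      rfl
    simp only [this, ← Finset.smul_sum, Pi.smul_apply]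

theorem hSum_coe {ι : Type} [Fintype ι] (Γ : Subgroup (GL (Fin 2) ℝ)) [Γ.IsArithmetic]
    [Γ.HasDetOne] (β : ι → GL (Fin 2) ℚ) (hβ : ∀ i, 0 < ((β i).map (algebraMap ℚ ℝ)).det.val)
    (H : Reps Γ (fun i => (β i).map (algebraMap ℚ ℝ))) (k : ℤ) (f : ModularForm Γ k) :
    (hSum Γ β hβ H k f : ℍ → ℂ) = ∑ i, (f : ℍ → ℂ) ∣[k] ((β i).map (algebraMap ℚ ℝ)) := rfl

/-! ### membership in `Γ₁(N)` by entries -/

/-- an element of `Γ₁(N)` from entries -/
theorem mem_G1 (N : ℕ) {a b c d : ℤ} (h : a * d - b * c = 1) (hN : (N : ℤ) ∣ c)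
    (hd : (N : ℤ) ∣ d - 1) :
    ∃ γ ∈ Gam N, (γ : Matrix (Fin 2) (Fin 2) ℝ) = !![(a : ℝ), b; c, d] := by
  refine ⟨SpecialLinearGroup.mapGL ℝ (sl a b c d h), ?_, ?_⟩
  · refine Subgroup.mem_map_of_mem _ ?_
    rw [Gamma1_mem]
    have e1 : ((c : ℤ) : ZMod N) = 0 := (ZMod.intCast_zmod_eq_zero_iff_dvd c N).2 hN
    have e2 : ((d : ℤ) : ZMod N) = 1 := by
      have := (ZMod.intCast_zmod_eq_zero_iff_dvd (d - 1) N).2 hd
      push_cast at this
      exact sub_eq_zero.1 this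
    have e3 : ((a : ℤ) : ZMod N) = 1 := by
      have := congrArg (fun x : ℤ => (x : ZMod N)) h
      push_cast at this
      rw [e1, e2, mul_zero, sub_zero, mul_one] at this
      exact this
    exact ⟨e3, e2, e1⟩
  · rw [SpecialLinearGroup.mapGL_coe_matrix, SpecialLinearGroup.map_apply_coe, sl_coe]
    ext i j
    fin_cases i <;> fin_cases j <;> simp

theorem of_mem_G1 {N : ℕ} {γ : GL (Fin 2) ℝ} (h : γ ∈ Gam N) :
    ∃ a b c d : ℤ, a * d - b * c = 1 ∧ (N : ℤ) ∣ c ∧ (N : ℤ) ∣ a - 1 ∧ (N : ℤ) ∣ d - 1 ∧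
      (γ : Matrix (Fin 2) (Fin 2) ℝ) = !![(a : ℝ), b; c, d] := by
  obtain ⟨g, hg, rfl⟩ := h
  have hg' : g ∈ Gamma1 N := hg
  rw [Gamma1_mem] at hg'
  refine ⟨g 0 0, g 0 1, g 1 0, g 1 1, ?_, ?_, ?_, ?_, ?_⟩
  · have := g.det_coe
    rwa [Matrix.det_fin_two] at this
  · exact (ZMod.intCast_zmod_eq_zero_iff_dvd _ N).1 hg'.2.2
  · refine (ZMod.intCast_zmod_eq_zero_iff_dvd _ N).1 ?_
    push_cast
    rw [hg'.1, sub_self]
  · refine (ZMod.intCast_zmod_eq_zero_iff_dvd _ N).1 ?_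
    push_cast
    rw [hg'.2.1, sub_self]
  · ext i j
    fin_cases i <;> fin_cases j <;> simp

/-! ### the diamond operators -/

theorem gd_coe {N d : ℕ} (h : Nat.Coprime d N) :
    ∃ a b : ℤ, a * d - b * N = 1 ∧
      (gd N d h : Matrix (Fin 2) (Fin 2) ℤ) = !![a, b; (N : ℤ), (d : ℤ)] := by
  refine ⟨Nat.gcdA d N, -Nat.gcdB d N, ?_, rfl⟩
  have h1 := Nat.gcd_eq_gcd_ab d N
  rw [Nat.Coprime] at h
  rw [h] at h1
  push_cast at h1
  linear_combination -h1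

theorem gd_mem {N d : ℕ} (h : Nat.Coprime d N) : gd N d h ∈ Gamma0 N := by
  obtain ⟨a, b, -, e⟩ := gd_coe h
  rw [Gamma0_mem]
  rw [e]
  simp

theorem gd_d {N d : ℕ} (h : Nat.Coprime d N) : ((gd N d h 1 1 : ℤ) : ZMod N) = d := by
  obtain ⟨a, b, -, e⟩ := gd_coe h
  rw [e]
  simp

theorem det_ZMod {N : ℕ} {s : SL(2, ℤ)} (hs : s ∈ Gamma0 N) :
    ((s 0 0 : ℤ) : ZMod N) * s 1 1 = 1 := by
  have := s.det_coe
  rw [Matrix.det_fin_two] at this
  have h4 := congrArg (fun x : ℤ => (x : ZMod N)) this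
  push_cast at h4
  rw [Gamma0_mem.1 hs, mul_zero, sub_zero] at h4
  exact h4

theorem conj_mem {N : ℕ} {s g : SL(2, ℤ)} (hs : s ∈ Gamma0 N) (hg : g ∈ Gamma1 N) :
    s * g * s⁻¹ ∈ Gamma1 N := by
  have hs0 := Gamma0_mem.1 hs
  rw [Gamma1_mem] at hg ⊢
  obtain ⟨h1, h2, h3⟩ := hg
  have hdet := det_ZMod hs
  have e := SpecialLinearGroup.SL2_inv_expl s
  have key : ∀ i j, (s * g * s⁻¹) i j = ((s : Matrix (Fin 2) (Fin 2) ℤ) * g *
      !![s 1 1, -s 0 1; -s 1 0, s 0 0]) i j := by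
    intro i j
    rw [e]
    rfl
  simp only [key]
  simp only [Matrix.mul_apply, Fin.sum_univ_two, Matrix.of_apply, Matrix.cons_val',
    Matrix.cons_val_zero, Matrix.cons_val_one, Matrix.cons_val_fin_one, Fin.isValue]
  push_cast
  rw [hs0, h1, h2, h3]
  refine ⟨?_, ?_, ?_⟩
  · linear_combination hdet
  · linear_combination hdet
  · ring

theorem mapGL_rat (s : SL(2, ℤ)) : (SpecialLinearGroup.mapGL ℚ s).map (algebraMap ℚ ℝ) =
    SpecialLinearGroup.mapGL ℝ s := by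
  apply Units.ext
  ext i j
  simp [SpecialLinearGroup.mapGL_coe_matrix]

theorem reps_dia {N : ℕ} {s : SL(2, ℤ)} (hs : s ∈ Gamma0 N) :
    Reps (Gam N) (fun _ : Unit => (SpecialLinearGroup.mapGL ℚ s).map (algebraMap ℚ ℝ)) where
  ex := by
    rintro ⟨⟩ γ ⟨g, hg, rfl⟩
    refine ⟨(), SpecialLinearGroup.mapGL ℝ (s * g * s⁻¹),
      Subgroup.mem_map_of_mem _ (conj_mem hs hg), ?_⟩
    simp only [mapGL_rat]
    rw [map_mul, map_mul, map_inv]
    group
  uniq := fun _ _ _ _ _ => rfl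

theorem det_mapGL (s : SL(2, ℤ)) :
    0 < ((SpecialLinearGroup.mapGL ℚ s).map (algebraMap ℚ ℝ)).det.val := by
  rw [mapGL_rat]
  simp

/-- slash by an element of `Γ₀(N)` on `M_k(Γ₁(N))` -/
def slG0 {N : ℕ} [NeZero N] {s : SL(2, ℤ)} (hs : s ∈ Gamma0 N) (k : ℕ) :
    Module.End ℂ (MF N k) :=
  hSum (Gam N) (fun _ : Unit => SpecialLinearGroup.mapGL ℚ s) (fun _ => det_mapGL s)
    (reps_dia hs) k

theorem slG0_coe {N : ℕ} [NeZero N] {s : SL(2, ℤ)} (hs : s ∈ Gamma0 N) (k : ℕ) (f : MF N k) :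
    (slG0 hs k f : ℍ → ℂ) = (f : ℍ → ℂ) ∣[(k : ℤ)] s := by
  rw [slG0, hSum_coe]
  simp only [Finset.univ_unique, Finset.sum_singleton, mapGL_rat]
  rfl

/-- the diamond operator `⟨ℓ⟩` on `M_k(Γ₁(N))` -/
def dia {N : ℕ} [NeZero N] (k : ℕ) (ℓ : PA N) : Module.End ℂ (MF N k) :=
  slG0 (gd_mem ℓ.coprime) k

theorem dia_coe {N : ℕ} [NeZero N] (k : ℕ) (ℓ : PA N) (f : MF N k) :
    (dia k ℓ f : ℍ → ℂ) = dFun N k ℓ f := slG0_coe _ k f

/-- `f | s` depends only on the lower right entry of `s ∈ Γ₀(N)` modulo `N` -/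
theorem dFun_eq {N k : ℕ} (ℓ : PA N) {s : SL(2, ℤ)} (hs : s ∈ Gamma0 N)
    (h : ((s 1 1 : ℤ) : ZMod N) = ℓ.1) (f : MF N k) :
    dFun N k ℓ f = (f : ℍ → ℂ) ∣[(k : ℤ)] s := by
  obtain ⟨a, b, h1, e⟩ := gd_coe ℓ.coprime
  have hs0 := Gamma0_mem.1 hs
  have hm : s * (gd N ℓ.1 ℓ.coprime)⁻¹ ∈ Gamma1 N := by
    have hdet := det_ZMod hs
    have hdet2 : (a : ZMod N) * ℓ.1 = 1 := by
      have h4 := congrArg (fun x : ℤ => (x : ZMod N)) h1
      push_cast at h4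
      rw [ZMod.natCast_self, mul_zero, sub_zero] at h4
      exact h4
    have key : ∀ i j, (s * (gd N ℓ.1 ℓ.coprime)⁻¹) i j = ((s : Matrix (Fin 2) (Fin 2) ℤ) *
        !![gd N ℓ.1 ℓ.coprime 1 1, -gd N ℓ.1 ℓ.coprime 0 1; -gd N ℓ.1 ℓ.coprime 1 0,
          gd N ℓ.1 ℓ.coprime 0 0]) i j := by
      intro i j
      rw [SpecialLinearGroup.SL2_inv_expl (gd N ℓ.1 ℓ.coprime)]
      rfl
    have g11 : gd N ℓ.1 ℓ.coprime 1 1 = (ℓ.1 : ℤ) := rfl
    have g10 : gd N ℓ.1 ℓ.coprime 1 0 = (N : ℤ) := rfl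
    have g00 : gd N ℓ.1 ℓ.coprime 0 0 = a := congrFun (congrFun e 0) 0
    have g01 : gd N ℓ.1 ℓ.coprime 0 1 = b := congrFun (congrFun e 0) 1
    rw [Gamma1_mem]
    simp only [key]
    simp only [Matrix.mul_apply, Fin.sum_univ_two, Matrix.of_apply, Matrix.cons_val',
      Matrix.cons_val_zero, Matrix.cons_val_one, Matrix.cons_val_fin_one, Fin.isValue]
    rw [g11, g10, g00, g01]
    push_cast
    rw [hs0, ZMod.natCast_self, h]
    rw [h] at hdet
    refine ⟨?_, ?_, ?_⟩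
    · linear_combination hdet
    · linear_combination hdet2
    · ring
  have h2 : (f : ℍ → ℂ) ∣[(k : ℤ)] (s * (gd N ℓ.1 ℓ.coprime)⁻¹) = f :=
    f.slash_action_eq' _ (Subgroup.mem_map_of_mem (SpecialLinearGroup.mapGL ℝ) hm)
  have h3 : s = (s * (gd N ℓ.1 ℓ.coprime)⁻¹) * gd N ℓ.1 ℓ.coprime := by group
  rw [dFun]
  conv_rhs => rw [h3, SlashAction.slash_mul, h2]

/-! ### the Hecke operators -/

theorem tri_coe (a b d : ℚ) (h : a * d ≠ 0) :
    (((tri a b d h).map (algebraMap ℚ ℝ) : GL (Fin 2) ℝ) : Matrix (Fin 2) (Fin 2) ℝ) =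
      !![(a : ℝ), b; 0, d] := by
  ext i j
  fin_cases i <;> fin_cases j <;> simp [tri]

theorem tri_det (a b d : ℚ) (h : a * d ≠ 0) :
    ((tri a b d h).map (algebraMap ℚ ℝ)).det.val = a * d := by
  rw [GeneralLinearGroup.val_det_apply, tri_coe, Matrix.det_fin_two_of]
  ring

/-- the representatives of `T_ℓ` for `Γ₁(N)`: `[1, j; 0, ℓ]` and `gd [ℓ, 0; 0, 1]` -/
def bH {N : ℕ} (ℓ : PA N) : Option (Fin ℓ.1) → GL (Fin 2) ℚ
  | none => SpecialLinearGroup.mapGL ℚ (gd N ℓ.1 ℓ.coprime) *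
      tri ℓ.1 0 1 (by simpa using ℓ.2.1.ne_zero)
  | some j => tri 1 (j : ℕ) ℓ.1 (by simpa using ℓ.2.1.ne_zero)

theorem bH_det {N : ℕ} (ℓ : PA N) (i : Option (Fin ℓ.1)) :
    0 < ((bH ℓ i).map (algebraMap ℚ ℝ)).det.val := by
  have hl0 : (0 : ℝ) < ℓ.1 := by exact_mod_cast ℓ.2.1.pos
  cases i with
  | none =>
    rw [bH, map_mul, map_mul, Units.val_mul, tri_det]
    have := det_mapGL (gd N ℓ.1 ℓ.coprime)
    refine mul_pos this ?_
    push_cast
    linarith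
  | some j =>
    rw [bH, tri_det]
    push_cast
    linarith

theorem bH_none {N : ℕ} (ℓ : PA N) : ∃ a b : ℤ, a * ℓ.1 - b * N = 1 ∧
    (((bH ℓ none).map (algebraMap ℚ ℝ) : GL (Fin 2) ℝ) : Matrix (Fin 2) (Fin 2) ℝ) =
      !![(a : ℝ) * ℓ.1, b; (N : ℝ) * ℓ.1, ℓ.1] := by
  obtain ⟨a, b, h1, e⟩ := gd_coe ℓ.coprime
  refine ⟨a, b, h1, ?_⟩
  rw [bH, map_mul, mapGL_rat, Units.val_mul, tri_coe, SpecialLinearGroup.mapGL_coe_matrix,
    SpecialLinearGroup.map_apply_coe, e]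
  ext i j
  fin_cases i <;> fin_cases j <;> simp [Matrix.mul_apply, Fin.sum_univ_two]

theorem repsH {N : ℕ} (ℓ : PA N) :
    Reps (Gam N) (fun i => (bH ℓ i).map (algebraMap ℚ ℝ)) where
  ex := by
    intro i γ hγ
    have hl1 := ℓ.2.1
    have hl0 : (ℓ.1 : ℤ) ≠ 0 := by exact_mod_cast hl1.ne_zero
    have hcopZ : IsCoprime (N : ℤ) (ℓ.1 : ℤ) := by
      rw [Nat.isCoprime_iff_coprime]
      exact ℓ.coprime.symm
    obtain ⟨a, b, c, d, h1, h2, h2a, h2d, h3⟩ := of_mem_G1 hγ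
    obtain ⟨a0, b0, h0, hn⟩ := bH_none ℓ
    -- the integral matrix `β i * γ`
    obtain ⟨a', b', c', d', hM, hdet, hc, ha'⟩ : ∃ a' b' c' d' : ℤ,
        ((((bH ℓ i).map (algebraMap ℚ ℝ)) * γ : GL (Fin 2) ℝ) : Matrix (Fin 2) (Fin 2) ℝ) =
          !![(a' : ℝ), b'; c', d'] ∧ a' * d' - b' * c' = ℓ.1 ∧ (N : ℤ) ∣ c' ∧
            (N : ℤ) ∣ a' - 1 := by
      cases i with
      | none =>
        refine ⟨a0 * ℓ.1 * a + b0 * c, a0 * ℓ.1 * b + b0 * d, N * ℓ.1 * a + ℓ.1 * c,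
          N * ℓ.1 * b + ℓ.1 * d, ?_, ?_, ?_, ?_⟩
        · rw [Units.val_mul, h3, hn]
          ext i j
          fin_cases i <;> fin_cases j <;> simp [Matrix.mul_apply, Fin.sum_univ_two]
        · linear_combination (ℓ.1 : ℤ) * (a0 * ℓ.1 - b0 * N) * h1 + (ℓ.1 : ℤ) * h0
        · exact dvd_add ((dvd_mul_right _ _).mul_right _) (h2.mul_left _)
        · obtain ⟨u, hu⟩ := h2
          obtain ⟨v, hv⟩ := h2a
          refine ⟨b0 + a0 * ℓ.1 * v + b0 * u, ?_⟩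
          rw [hu]
          linear_combination a0 * ℓ.1 * hv + h0
      | some j =>
        refine ⟨a + (j : ℕ) * c, b + (j : ℕ) * d, ℓ.1 * c, ℓ.1 * d, ?_,
          by linear_combination (ℓ.1 : ℤ) * h1, h2.mul_left _, ?_⟩
        · rw [Units.val_mul, h3, bH, tri_coe]
          ext i j
          fin_cases i <;> fin_cases j <;> simp [Matrix.mul_apply, Fin.sum_univ_two]
        · have : a + (j : ℕ) * c - 1 = (a - 1) + (j : ℕ) * c := by ring
          rw [this]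
          exact dvd_add h2a (h2.mul_left _)
    by_cases hh : (ℓ.1 : ℤ) ∣ a' ∧ (ℓ.1 : ℤ) ∣ c'
    · obtain ⟨⟨u, hu⟩, ⟨v, hv⟩⟩ := hh
      have e1 : u * d' - b' * v = 1 := by
        apply mul_left_cancel₀ hl0
        rw [hu, hv] at hdet
        linear_combination hdet
      have e2 : (N : ℤ) ∣ v := by
        rw [hv] at hc
        exact hcopZ.dvd_of_dvd_mul_left hc
      obtain ⟨v', hv'⟩ := e2
      have e3 : (N : ℤ) ∣ d' - ℓ.1 := by
        obtain ⟨w, hw⟩ := ha'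
        have : d' - ℓ.1 = (N : ℤ) * (b' * v' * ℓ.1 - w * d') := by
          have : a' = 1 + N * w := by linear_combination hw
          rw [this] at hdet
          have h5 : c' = ℓ.1 * (N * v') := by rw [hv, hv']
          rw [h5] at hdet
          linear_combination hdet
        exact ⟨_, this⟩
      have f1 : (u * ℓ.1 - b' * N) * (d' * a0 - v * b0) -
          (b' * a0 - u * b0) * (v * ℓ.1 - d' * N) = 1 := by
        linear_combination (a0 * ℓ.1 - b0 * N) * e1 + h0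
      have f2 : (N : ℤ) ∣ v * ℓ.1 - d' * N := by
        rw [hv']
        exact ⟨v' * ℓ.1 - d', by ring⟩
      have f3 : (N : ℤ) ∣ d' * a0 - v * b0 - 1 := by
        obtain ⟨w, hw⟩ := e3
        refine ⟨w * a0 - v' * b0 + b0, ?_⟩
        rw [hv']
        linear_combination a0 * hw + h0
      obtain ⟨γ', hγ', hγ2⟩ := mem_G1 N f1 f2 f3
      refine ⟨none, γ', hγ', ?_⟩
      apply Units.ext
      rw [hM, Units.val_mul, hγ2, hn, hu, hv]
      have h0' : (a0 : ℝ) * ℓ.1 - b0 * N = 1 := by exact_mod_cast h0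
      ext i j
      fin_cases i <;> fin_cases j <;> simp [Matrix.mul_apply, Fin.sum_univ_two]
      · linear_combination (-(ℓ.1 : ℝ) * u) * h0'
      · linear_combination (-(b' : ℝ)) * h0'
      · linear_combination (-(ℓ.1 : ℝ) * v) * h0'
      · linear_combination (-(d' : ℝ)) * h0'
    · obtain ⟨j, u, v, hu, hv⟩ := key1 ℓ.1 hl1 hdet hh
      have e1 : a' * v - u * c' = 1 := by
        apply mul_left_cancel₀ hl0
        rw [hu, hv] at hdet
        linear_combination hdet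
      have e2 : (N : ℤ) ∣ v - 1 := by
        obtain ⟨w, hw⟩ := ha'
        obtain ⟨t, ht⟩ := hc
        refine ⟨u * t - w * v, ?_⟩
        rw [ht] at e1
        linear_combination e1 - v * hw
      obtain ⟨γ', hγ', hγ2⟩ := mem_G1 N e1 hc e2
      refine ⟨some j, γ', hγ', ?_⟩
      apply Units.ext
      rw [hM, Units.val_mul, hγ2, bH, tri_coe, hu, hv]
      ext i j
      fin_cases i <;> fin_cases j <;> simp [Matrix.mul_apply, Fin.sum_univ_two]
  uniq := by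
    intro i j γ hγ h
    have hl1 := ℓ.2.1
    have : Fact ℓ.1.Prime := ⟨hl1⟩
    obtain ⟨a, b, c, d, h1, h2, h2a, h2d, h3⟩ := of_mem_G1 hγ
    obtain ⟨a0, b0, h0, hn⟩ := bH_none ℓ
    have h4 := congrArg (fun x : GL (Fin 2) ℝ => (x : Matrix (Fin 2) (Fin 2) ℝ)) h
    simp only [Units.val_mul, h3] at h4
    cases i with
    | none =>
      cases j with
      | none => rfl
      | some j =>
        exfalso
        rw [hn] at h4
        simp only [bH, tri_coe] at h4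
        have h00 := congrFun (congrFun h4 0) 0
        have h10 := congrFun (congrFun h4 1) 0
        simp [Matrix.mul_apply, Fin.sum_univ_two] at h00 h10
        have g1 : (1 : ℝ) = (a0 * d - b * N : ℤ) * ℓ.1 := by
          have h1' : (a : ℝ) * d - b * c = 1 := by exact_mod_cast h1
          push_cast
          linear_combination -h1' - d * h00 + b * h10
        exact no_unit ℓ.1 _ g1
    | some i =>
      cases j with
      | none =>
        exfalso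
        rw [hn] at h4
        simp only [bH, tri_coe] at h4
        have h00 := congrFun (congrFun h4 0) 0
        simp [Matrix.mul_apply, Fin.sum_univ_two] at h00
        have g1 : (1 : ℝ) = (a * a0 + b * N : ℤ) * ℓ.1 := by
          push_cast
          linear_combination h00
        exact no_unit ℓ.1 _ g1
      | some j =>
        simp only [bH, tri_coe] at h4
        have h00 := congrFun (congrFun h4 0) 0
        have h01 := congrFun (congrFun h4 0) 1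
        simp [Matrix.mul_apply, Fin.sum_univ_two] at h00 h01
        rw [← h00, one_mul] at h01
        rw [fin_eq ℓ.1 h01]

/-- the Hecke operator `T_ℓ` on `M_k(Γ₁(N))` -/
def Tl {N : ℕ} [NeZero N] (k : ℕ) (ℓ : PA N) : Module.End ℂ (MF N k) :=
  hSum (Gam N) (bH ℓ) (bH_det ℓ) (repsH ℓ) k

theorem Tl_coe {N : ℕ} [NeZero N] (k : ℕ) (ℓ : PA N) (f : MF N k) :
    (Tl k ℓ f : ℍ → ℂ) = tFun N k ℓ f := by
  rw [Tl, hSum_coe, Fintype.sum_option, tFun, add_comm]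
  congr 1
  rw [bH, map_mul, SlashAction.slash_mul, mapGL_rat]
  rfl

theorem HK1 : HK1Stmt := by
  intro N k hN ℓ f
  have : NeZero N := ⟨hN.ne'⟩
  exact ⟨dia k ℓ f, dia_coe k ℓ f⟩

theorem HK2 : HK2Stmt := by
  intro N k hN ℓ f
  have : NeZero N := ⟨hN.ne'⟩
  exact ⟨Tl k ℓ f, Tl_coe k ℓ f⟩

end Vale.Agent.P022.H783
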