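import Vale.Agent.P022.H472.Lit2
import Vale.Agent.P022.H783.QE

/-!
# P022: the algebras `T_{≤ k}` and `T₂(N)` are commutative
-/

open scoped ModularForm MatrixGroups TensorProduct
open UpperHalfPlane CongruenceSubgroup

noncomputable section

namespace Vale.Agent.P022.H783

variable {N : ℕ} [NeZero N]

/-- the generators commute in every weight -/
theorem gHk_comm (s t : Gen N) (i : ℕ) : gHk N s i * gHk N t i = gHk N t i * gHk N s i := by
  have e1 : ∀ ℓ ℓ' : PA N, Tl (i + 1) ℓ * Tl (i + 1) ℓ' = Tl (i + 1) ℓ' * Tl (i + 1) ℓ :=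
    fun ℓ ℓ' => LinearMap.ext fun f => Tl_Tl (i + 1) ℓ ℓ' f
  have e2 : ∀ ℓ ℓ' : PA N, Tl (i + 1) ℓ * dia (i + 1) ℓ' = dia (i + 1) ℓ' * Tl (i + 1) ℓ :=
    fun ℓ ℓ' => LinearMap.ext fun f => Tl_slG0 (i + 1) ℓ (gd_mem ℓ'.coprime) f
  have e3 : ∀ ℓ ℓ' : PA N, dia (i + 1) ℓ * dia (i + 1) ℓ' = dia (i + 1) ℓ' * dia (i + 1) ℓ :=
    fun ℓ ℓ' => LinearMap.ext fun f => dia_dia (i + 1) ℓ ℓ' f
  rcases s with ℓ | ℓ <;> rcases t with ℓ' | ℓ' <;> simp only [gHk]
  · exact e1 ℓ ℓ'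
  · rw [mul_smul_comm, smul_mul_assoc, e2]
  · rw [mul_smul_comm, smul_mul_assoc, e2]
  · rw [mul_smul_comm, smul_mul_assoc, mul_smul_comm, smul_mul_assoc, e3, smul_comm]

/-- `T_{≤ k}` is commutative -/
theorem HA_comm (k : ℕ) (x y : HA (gHk N) k) : x * y = y * x := by
  have h : ∀ a ∈ Set.range (gk (gHk N) k), ∀ b ∈ Set.range (gk (gHk N) k), a * b = b * a := by
    rintro _ ⟨s, rfl⟩ _ ⟨t, rfl⟩
    funext i
    exact gHk_comm s t i
  have h2 := Algebra.isMulCommutative_adjoin ℤ h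
  exact h2.is_comm.comm x y

/-- `ℤ₂ ⊗ T_{≤ k}` is commutative -/
theorem tens_comm (k : ℕ) (x y : ℤ_[2] ⊗[ℤ] HA (gHk N) k) : x * y = y * x := by
  induction x with
  | zero => rw [zero_mul, mul_zero]
  | add a b ha hb => rw [add_mul, mul_add, ha, hb]
  | tmul a u =>
    induction y with
    | zero => rw [zero_mul, mul_zero]
    | add c d hc hd => rw [add_mul, mul_add, hc, hd]
    | tmul c v =>
      rw [Algebra.TensorProduct.tmul_mul_tmul, Algebra.TensorProduct.tmul_mul_tmul, mul_comm a c,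
        HA_comm k u v]

/-- `T₂(N)` is commutative -/
theorem T2_comm (x y : T2 (gHk N)) : x * y = y * x :=
  Subtype.ext (funext fun k => tens_comm k _ _)

end Vale.Agent.P022.H783
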